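import Vale.Agent.P040.H837.CompRead
import Vale.Agent.P040.H198.Bridge

/-!
# From drawings of `K_n` to arc diagrams (helper837)
-/

set_option autoImplicit false

namespace Vale.Agent.P040.Topo

open Set

theorem comp_small {n : ℕ} (hn : n ≤ 1) : ∃ C : CompDiag n, C.total = 0 := by
  have hs : ∀ b x : Fin n, b = x := fun b x => by
    apply Fin.ext
    omega
  refine ⟨⟨fun i => (i : ℕ), fun _ _ => ⟨1, one_pos, fun _ => 0, true⟩, ?_, ?_, ?_, ?_, ?_, ?_, ?_,
    ?_, ?_, ?_⟩, ?_⟩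
  · intro b x _
    exact hs b x
  all_goals try (intro b x; first | exact fun h => absurd (hs b x) h | exact fun _ _ h => absurd (hs b x) h)
  rw [CompDiag.total]
  refine Finset.sum_eq_zero fun b _ => Finset.sum_eq_zero fun k hk => ?_
  rw [Finset.mem_filter] at hk
  exact absurd (hs b k) hk.2.ne

theorem exists_compDiag (n : ℕ) (D : Drawing (⊤ : SimpleGraph (Fin n))) :
    ∃ C : CompDiag n, C.total ≤ 4 * D.crossings := by
  classical
  rcases Nat.lt_or_ge 1 n with hn | hn
  swap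
  · obtain ⟨C, hC⟩ := comp_small hn
    exact ⟨C, by omega⟩
  obtain ⟨D', hD', hU⟩ := D.uncross_gen
  let ι : Type := {p : Fin n × Fin n // p.1 < p.2}
  set E : ι → Sym2 (Fin n) := fun i => s(i.1.1, i.1.2) with hE
  have hEmem : ∀ i, E i ∈ (⊤ : SimpleGraph (Fin n)).edgeSet := by
    intro i
    rw [hE, SimpleGraph.mem_edgeSet, SimpleGraph.top_adj]
    exact i.2.ne
  have hEinj : ∀ i j, i ≠ j → E i ≠ E j := by
    rintro ⟨⟨a, b⟩, h⟩ ⟨⟨c, d⟩, h'⟩ hij he
    simp only [hE, Sym2.eq_iff] at he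
    dsimp only at h h'
    rcases he with ⟨rfl, rfl⟩ | ⟨rfl, rfl⟩
    · exact hij rfl
    · exact absurd h h'.not_gt
  have hadj : ∀ i : ι, (⊤ : SimpleGraph (Fin n)).Adj i.1.1 i.1.2 := fun i => by
    rw [SimpleGraph.top_adj]
    exact i.2.ne
  set P : Set Plane := range D'.pos ∪ D'.crossingSet with hP
  have hPf : P.Finite := (finite_range _).union D'.crossingSet_finite
  have hI : ∀ i j, i ≠ j → D'.arc (E i) ∩ D'.arc (E j) ⊆ P := by
    intro i j hij w hw
    by_cases hw0 : w ∈ range D'.pos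
    · exact Or.inl hw0
    · exact Or.inr ⟨hw0, _, hEmem i, _, hEmem j, hEinj i j hij, hw.1, hw.2⟩
  obtain ⟨T, hT, hTc, hTI, hTP⟩ := tame (fun i => D'.arc (E i)) (fun i => D'.pos i.1.1)
    (fun i => D'.pos i.1.2) hPf (fun i => D'.isArc _ _ (hadj i))
    (fun i h => absurd (D'.pos_inj h) i.2.ne) (fun i => Or.inl ⟨_, rfl⟩)
    (fun i => Or.inl ⟨_, rfl⟩) hI
  choose F hF using hTc
  obtain ⟨Φ, hV, hC, hfin⟩ := spine (range D'.pos) D'.crossingSet (Finset.univ.biUnion F)
    (finite_range _) (by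
      refine ⟨D'.pos ⟨0, by omega⟩, ⟨_, rfl⟩, D'.pos ⟨1, hn⟩, ⟨_, rfl⟩, ?_⟩
      intro h
      have := D'.pos_inj h
      simp at this) D'.crossingSet_finite (by
      rw [disjoint_left]
      intro w hw hw'
      exact hw'.1 hw)
  have hΦ : ∀ v, Φ (D'.pos v) = ((Φ (D'.pos v)).1, 0) := by
    intro v
    ext
    · rfl
    · exact hV _ ⟨v, rfl⟩
  have hinj : ∀ v w, (Φ (D'.pos v)).1 = (Φ (D'.pos w)).1 → v = w := by
    intro v w h
    apply D'.pos_inj
    apply Φ.injective
    rw [hΦ v, hΦ w, h]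
  -- the edge as an element of the index type
  let nm : ∀ b x : Fin n, b ≠ x → ι := fun b x h =>
    if hbx : b < x then ⟨(b, x), hbx⟩ else ⟨(x, b), lt_of_le_of_ne (not_lt.1 hbx) h.symm⟩
  have hnm : ∀ b x (h : b ≠ x), E (nm b x h) = s(b, x) := by
    intro b x h
    by_cases hbx : b < x
    · simp only [nm, hE, dif_pos hbx]
    · simp only [nm, hE, dif_neg hbx]
      exact Sym2.eq_swap
  have hnm2 : ∀ b x (h : b ≠ x), nm x b h.symm = nm b x h := by
    intro b x h
    by_contra hne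
    exact hEinj _ _ hne (by rw [hnm b x h, hnm x b h.symm]; exact Sym2.eq_swap)
  have hnmE : ∀ b x k y (h : b ≠ x) (h' : k ≠ y), nm b x h = nm k y h' → s(b, x) = s(k, y) := by
    intro b x k y h h' he
    rw [← hnm b x h, ← hnm k y h', he]
  set S : Fin n → Fin n → Set Plane := fun b x =>
    if h : b ≠ x then Φ '' T (nm b x h) else ∅ with hSdef
  have hSb : ∀ b x (h : b ≠ x), S b x = Φ '' T (nm b x h) := fun b x h => dif_pos h
  have hmemS : ∀ b x (h : b ≠ x) w, w ∈ S b x → ∃ u ∈ T (nm b x h), Φ u = w := by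
    intro b x h w hw
    rw [hSb b x h] at hw
    exact hw
  have hTS : ∀ i, ∀ c ∈ P, c ∈ T i → c ∈ D'.arc (E i) := fun i c hc hcT => hTP i ⟨hcT, hc⟩
  -- points on two edges without common ends
  have hdisj : ∀ i j : ι, i ≠ j → (∀ v, v ∈ E i → v ∉ E j) → ∀ w, w ∈ D'.arc (E i) →
      w ∈ D'.arc (E j) → w ∈ D'.crossingSet := by
    intro i j hij h2 w hw hw'
    refine ⟨?_, _, hEmem i, _, hEmem j, hEinj i j hij, hw, hw'⟩
    rintro ⟨v, rfl⟩
    exact h2 v (D'.avoid _ (hEmem i) v hw) (D'.avoid _ (hEmem j) v hw')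
  have hne2 : ∀ b x k y (h : b ≠ x) (h' : k ≠ y), b ≠ k → b ≠ y → nm b x h ≠ nm k y h' := by
    intro b x k y h h' h1 h2 he
    have := hnmE b x k y h h' he
    rw [Sym2.eq_iff] at this
    rcases this with ⟨h3, -⟩ | ⟨h3, -⟩
    · exact h1 h3
    · exact h2 h3
  obtain ⟨A, -, hA⟩ := readComp S (fun v => (Φ (D'.pos v)).1) (Φ '' D'.crossingSet)
    (fun v w h => hinj _ _ h)
    (by
      intro b x hbx
      rw [hSb b x hbx.ne, ← hΦ, ← hΦ]
      have : nm b x hbx.ne = ⟨(b, x), hbx⟩ := dif_pos hbx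
      rw [this]
      exact IsArc.homeo (hT _) Φ)
    (by
      intro b x hbx
      have h4 : {w | w ∈ T (nm b x hbx.ne) ∧ (Φ w).2 = 0}.Finite := by
        apply Set.Finite.subset (Set.Finite.biUnion (Finset.univ.biUnion F).finite_toSet hfin)
        rintro w ⟨hw, hw0⟩
        have := hF (nm b x hbx.ne) hw
        simp only [mem_iUnion] at this ⊢
        obtain ⟨e, he, hwe⟩ := this
        refine ⟨e, ?_, hwe, hw0⟩
        simp only [Finset.coe_biUnion, mem_iUnion, Finset.coe_univ, mem_univ, exists_prop, true_and]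
        exact ⟨nm b x hbx.ne, he⟩
      apply (h4.image Φ).subset
      rintro w ⟨hw, hw0⟩
      obtain ⟨u, hu, rfl⟩ := hmemS b x hbx.ne w hw
      exact ⟨u, ⟨hu, hw0⟩, rfl⟩)
    (by
      intro b x
      by_cases h : b = x
      · subst h; rfl
      · rw [hSb b x h, hSb x b (Ne.symm h), hnm2 b x h])
    (D'.crossingSet_finite.image _)
    (by
      rintro c ⟨u, hu, rfl⟩
      exact hC u hu)
    (by
      intro b x v hbx hw
      obtain ⟨u, hu, he⟩ := hmemS b x hbx _ hw
      have h3 : u = D'.pos v := Φ.injective (he.trans (hΦ v).symm)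
      subst h3
      have h4 := hTS _ _ (Or.inl ⟨v, rfl⟩) hu
      have h5 := D'.avoid _ (hEmem _) v h4
      rw [hnm b x hbx, Sym2.mem_iff] at h5
      exact h5)
    (by
      intro b x y hbx hby hxy w hw hw'
      obtain ⟨u, hu, rfl⟩ := hmemS b x hbx w hw
      obtain ⟨u', hu', he⟩ := hmemS b y hby _ hw'
      have := Φ.injective he
      subst this
      have hne : nm b x hbx ≠ nm b y hby := by
        intro h
        have h5 := hnmE b x b y hbx hby h
        rw [Sym2.eq_iff] at h5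
        rcases h5 with ⟨-, h5⟩ | ⟨h5, -⟩
        · exact hxy h5
        · exact hby h5
      have h4 := hTI _ _ hne ⟨hu, hu'⟩
      rw [hnm b x hbx, hnm b y hby] at h4
      rw [← hΦ]
      congr 1
      exact hU b x y (by rw [SimpleGraph.top_adj]; exact hbx)
        (by rw [SimpleGraph.top_adj]; exact hby) hxy u' h4.1 h4.2)
    (by
      intro b x k y hbx hky h1 h2 h3 h4 w hw hw'
      obtain ⟨u, hu, rfl⟩ := hmemS b x hbx w hw
      obtain ⟨u', hu', he⟩ := hmemS k y hky _ hw'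
      have := Φ.injective he
      subst this
      have hne := hne2 b x k y hbx hky h1 h2
      have h5 := hTI _ _ hne ⟨hu, hu'⟩
      refine ⟨u', hdisj _ _ hne ?_ u' h5.1 h5.2, rfl⟩
      intro v hv hv'
      rw [hnm b x hbx, Sym2.mem_iff] at hv
      rw [hnm k y hky, Sym2.mem_iff] at hv'
      rcases hv with rfl | rfl <;> rcases hv' with h | h
      · exact h1 h
      · exact h2 h
      · exact h3 h
      · exact h4 h)
    (by
      rintro c ⟨u, hu, rfl⟩ b x k y b' x' k' y' n1 n2 n3 n4 n5 n6 m1 m2 m3 m4 m5 m6 p1 p2 p3 p4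
      obtain ⟨u1, hu1, e1⟩ := hmemS b x n1 _ p1
      obtain ⟨u2, hu2, e2⟩ := hmemS k y n2 _ p2
      obtain ⟨u3, hu3, e3⟩ := hmemS b' x' m1 _ p3
      obtain ⟨u4, hu4, e4⟩ := hmemS k' y' m2 _ p4
      have := Φ.injective e1; subst this
      have := Φ.injective e2; subst this
      have := Φ.injective e3; subst this
      have := Φ.injective e4; subst this
      have q1 := hTS _ _ (Or.inr hu) hu1
      have q2 := hTS _ _ (Or.inr hu) hu2
      have q3 := hTS _ _ (Or.inr hu) hu3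
      have q4 := hTS _ _ (Or.inr hu) hu4
      have r1 := hEinj _ _ (hne2 b x k y n1 n2 n3 n4)
      have r2 := hEinj _ _ (hne2 b' x' k' y' m1 m2 m3 m4)
      have := D'.pair_unique hu.1 (hEmem _) (hEmem _) (hEmem _) (hEmem _) r1 r2 q1 q2 q3 q4
      rw [hnm b x n1, hnm k y n2, hnm b' x' m1, hnm k' y' m2] at this
      exact this)
  refine ⟨A, hA.trans ?_⟩
  rw [ncard_image_of_injective _ Φ.injective]
  exact Nat.mul_le_mul_left 4 hD'

theorem compStatement : CompStatement := exists_compDiag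

end Vale.Agent.P040.Topo
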