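import Vale.Agent.P040.H198.ArcDiag

/-!
# Interleaving in a linear order; infinitesimal shifts (helper837)
-/

set_option autoImplicit false

namespace Vale.Agent.P040.HH

open Topo

/-- interleaving pairs in a linear order -/
def LI {Λ : Type} [LinearOrder Λ] (a b c d : Λ) : Prop :=
  (min a b < min c d ∧ min c d < max a b ∧ max a b < max c d) ∨
  (min c d < min a b ∧ min a b < max c d ∧ max c d < max a b)

/-- `c` is strictly between `a` and `b` -/
def Bt {Λ : Type} [LinearOrder Λ] (a b c : Λ) : Prop := (a < c ∧ c < b) ∨ (b < c ∧ c < a)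

section lin

variable {Λ : Type} [LinearOrder Λ]

theorem LI_iff (a b c d : Λ) :
    LI a b c d ↔ a ≠ c ∧ a ≠ d ∧ b ≠ c ∧ b ≠ d ∧ (Bt a b c ↔ ¬ Bt a b d) := by
  unfold LI Bt
  rcases le_total a b with h1 | h1 <;> rcases le_total c d with h2 | h2 <;>
    simp only [h1, h2, min_eq_left, min_eq_right, max_eq_left, max_eq_right] <;> grind

theorem LI_comm (a b c d : Λ) : LI a b c d ↔ LI c d a b := by
  unfold LI
  exact Or.comm

theorem LI_swap_left (a b c d : Λ) : LI a b c d ↔ LI b a c d := by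
  unfold LI
  rw [min_comm a b, max_comm a b]

theorem LI_swap_right (a b c d : Λ) : LI a b c d ↔ LI a b d c := by
  unfold LI
  rw [min_comm c d, max_comm c d]

theorem not_LI_same (a b d : Λ) : ¬ LI a b a d := by
  rw [LI_iff]
  tauto

theorem not_LI_same' (a b d : Λ) : ¬ LI b a d a := by
  rw [LI_iff]
  tauto

theorem not_LI_same'' (a b d : Λ) : ¬ LI a b d a := by
  rw [LI_iff]
  tauto

theorem not_LI_same''' (a b d : Λ) : ¬ LI b a a d := by
  rw [LI_iff]
  tauto

end lin

theorem inter_iff (a b c d : ℝ) : Inter a b c d ↔ LI a b c d := Iff.rfl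

/-- strictly monotone maps keep interleaving -/
theorem LI_map {Λ : Type} [LinearOrder Λ] {S : Set Λ} {f : Λ → ℝ} (hf : StrictMonoOn f S)
    {a b c d : Λ} (ha : a ∈ S) (hb : b ∈ S) (hc : c ∈ S) (hd : d ∈ S) :
    Inter (f a) (f b) (f c) (f d) ↔ LI a b c d := by
  rw [inter_iff, LI_iff, LI_iff]
  unfold Bt
  rw [hf.lt_iff_lt ha hc, hf.lt_iff_lt hc hb, hf.lt_iff_lt hb hc, hf.lt_iff_lt hc ha,
    hf.lt_iff_lt ha hd, hf.lt_iff_lt hd hb, hf.lt_iff_lt hb hd, hf.lt_iff_lt hd ha]
  have h1 : f a ≠ f c ↔ a ≠ c := (hf.injOn.eq_iff ha hc).not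
  have h2 : f a ≠ f d ↔ a ≠ d := (hf.injOn.eq_iff ha hd).not
  have h3 : f b ≠ f c ↔ b ≠ c := (hf.injOn.eq_iff hb hc).not
  have h4 : f b ≠ f d ↔ b ≠ d := (hf.injOn.eq_iff hb hd).not
  rw [h1, h2, h3, h4]

/-- a finite linear order embeds in the reals -/
theorem exists_mono {Λ : Type} [LinearOrder Λ] (S : Finset Λ) :
    ∃ f : Λ → ℝ, StrictMonoOn f (S : Set Λ) := by
  classical
  refine ⟨fun a => ((S.filter (· < a)).card : ℝ), ?_⟩
  intro a ha b hb hab
  simp only [Nat.cast_lt]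
  apply Finset.card_lt_card
  rw [Finset.ssubset_iff_of_subset]
  · exact ⟨a, by simpa using ⟨ha, hab⟩, by simp⟩
  · intro x hx
    simp only [Finset.mem_filter] at hx ⊢
    exact ⟨hx.1, hx.2.trans hab⟩

/-! ### infinitesimal shifts -/

/-- reals with an infinitesimal part -/
abbrev LR : Type := ℝ ×ₗ ℝ

/-- the point `a` shifted by the infinitesimal `s` -/
def mk (a s : ℝ) : LR := toLex (a, s)

theorem mk_lt (a s b t : ℝ) : mk a s < mk b t ↔ a < b ∨ (a = b ∧ s < t) :=
  Prod.Lex.toLex_lt_toLex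

theorem mk_inj {a s b t : ℝ} : mk a s = mk b t ↔ a = b ∧ s = t := by
  unfold mk
  rw [toLex_inj, Prod.mk.injEq]

/-- the case of different base points -/
theorem LI_base {a b c d : ℝ} (s t u w : ℝ) (h1 : a ≠ c) (h2 : a ≠ d) (h3 : b ≠ c) (h4 : b ≠ d) :
    LI (mk a s) (mk b t) (mk c u) (mk d w) ↔ Inter a b c d := by
  rw [inter_iff, LI_iff, LI_iff]
  unfold Bt
  simp only [mk_lt, ne_eq, mk_inj, h1, h2, h3, h4, h1.symm, h2.symm, h3.symm, h4.symm, false_and,
    or_false, not_false_eq_true, true_and]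

/-- a small piece does not interleave with a piece whose ends are elsewhere -/
theorem not_LI_small {v c d : ℝ} (s t u w : ℝ) (h1 : v ≠ c) (h2 : v ≠ d) :
    ¬ LI (mk v s) (mk v t) (mk c u) (mk d w) := by
  rw [LI_base s t u w h1 h2 h1 h2, inter_iff, LI_iff]
  unfold Bt
  grind

/-- the direction key of `q` seen from `v` -/
noncomputable def key (v q : ℝ) : ℝ := (v - q)⁻¹

theorem key_lt_iff {v q r : ℝ} (hq : v ≠ q) (hr : v ≠ r) :
    key v q < key v r ↔ (v < q ∧ q < r) ∨ (v < q ∧ r < v) ∨ (q < r ∧ r < v) := by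
  unfold key
  rcases lt_or_gt_of_ne hq with h1 | h1 <;> rcases lt_or_gt_of_ne hr with h2 | h2
  · rw [inv_lt_inv_of_neg (by linarith) (by linarith)]
    constructor
    · intro h
      left
      exact ⟨h1, by linarith⟩
    · rintro (h | h | h)
      · linarith
      · linarith
      · linarith
  · have : (v - q)⁻¹ < 0 := inv_neg''.2 (by linarith)
    have h3 : 0 < (v - r)⁻¹ := inv_pos.2 (by linarith)
    constructor
    · intro _
      right; left
      exact ⟨h1, h2⟩
    · intro _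
      linarith
  · have : 0 < (v - q)⁻¹ := inv_pos.2 (by linarith)
    have h3 : (v - r)⁻¹ < 0 := inv_neg''.2 (by linarith)
    constructor
    · intro _
      linarith
    · rintro (h | h | h) <;> linarith
  · rw [inv_lt_inv₀ (by linarith) (by linarith)]
    constructor
    · intro h
      right; right
      exact ⟨by linarith, h2⟩
    · rintro (h | h | h) <;> linarith

/-- two pieces at a common vertex -/
theorem LI_vertex {v q r : ℝ} {s s' : ℝ} (t t' : ℝ) (hs : s < s') (hq : v ≠ q) (hr : v ≠ r)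
    (hqr : q ≠ r) :
    LI (mk v s) (mk q t) (mk v s') (mk r t') ↔ key v q < key v r := by
  rw [key_lt_iff hq hr, LI_iff]
  unfold Bt
  simp only [mk_lt, ne_eq, mk_inj]
  grind

/-- the piece `(v, s)–q` and the small piece `(v, s₁)–(v, s₂)` with `s < s₁ < s₂` -/
theorem not_LI_out {v q : ℝ} {s s₁ s₂ : ℝ} (t : ℝ) (h1 : s < s₁) (h2 : s < s₂) (hq : v ≠ q) :
    ¬ LI (mk v s) (mk q t) (mk v s₁) (mk v s₂) := by
  rw [LI_iff]
  unfold Bt
  simp only [mk_lt, ne_eq, mk_inj]
  grind

/-- parallel pieces with opposite shifts are nested -/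
theorem not_LI_par {a b : ℝ} {s t : ℝ} (hab : a ≠ b) (h : (s < 0 ∧ 0 < t) ∨ (0 < s ∧ t < 0)) :
    ¬ LI (mk a 0) (mk b 0) (mk a s) (mk b t) := by
  rw [LI_iff]
  unfold Bt
  simp only [mk_lt, ne_eq, mk_inj]
  grind

end Vale.Agent.P040.HH
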