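import Vale.Agent.P040.H198.ArcDiag

/-!
# Arc diagrams of complete graphs (helper837)

Type for the `K_n` side: all vertices lie on the spine, every ordered pair `b ≠ x` has an arm from
`b` to `x`, the arm from `x` to `b` is its reverse, two edges with a common end do not interleave.
-/

set_option autoImplicit false

namespace Vale.Agent.P040.Topo

/-- the reversed arm -/
def Arm.rev (A : Arm) : Arm where
  len := A.len
  len_pos := A.len_pos
  p := fun i => A.p (A.len - i)
  up := A.page (A.len - 1)

theorem Arm.page_zero (A : Arm) : A.page 0 = A.up := by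
  simp [Arm.page]

theorem Arm.page_succ (A : Arm) (j : ℕ) : A.page (j + 1) = !A.page j := by
  unfold Arm.page
  by_cases h : Even j
  · have : ¬ Even (j + 1) := by rw [Nat.even_add_one]; exact not_not.2 h
    simp [h, this]
  · have : Even (j + 1) := by rw [Nat.even_add_one]; exact h
    simp [h, this]

theorem Arm.rev_page (A : Arm) {i : ℕ} (hi : i < A.len) :
    A.rev.page i = A.page (A.len - 1 - i) := by
  induction i with
  | zero => rw [Arm.page_zero]; rfl
  | succ i ih =>
    rw [Arm.page_succ, ih (by omega)]
    have : A.len - 1 - i = (A.len - 1 - (i + 1)) + 1 := by omega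
    rw [this, Arm.page_succ, Bool.not_not]

/-- An arc diagram of the complete graph on `Fin n`. -/
structure CompDiag (n : ℕ) where
  /-- positions of the vertices on the spine -/
  pos : Fin n → ℝ
  /-- `arm b x` goes from `b` to `x` (only meaningful for `b ≠ x`) -/
  arm : Fin n → Fin n → Arm
  pos_inj : Function.Injective pos
  arm_zero : ∀ b x, b ≠ x → (arm b x).p 0 = pos b
  arm_last : ∀ b x, b ≠ x → (arm b x).p (arm b x).len = pos x
  /-- the arm from `x` to `b` is the reversed arm from `b` to `x` -/
  rev_len : ∀ b x, b ≠ x → (arm x b).len = (arm b x).len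
  rev_p : ∀ b x, b ≠ x → ∀ i ≤ (arm b x).len, (arm x b).p i = (arm b x).p ((arm b x).len - i)
  rev_page : ∀ b x, b ≠ x → ∀ i < (arm b x).len,
    (arm x b).page i = (arm b x).page ((arm b x).len - 1 - i)
  /-- the points of one arm are distinct -/
  self_inj : ∀ b x, b ≠ x → ∀ i ≤ (arm b x).len, ∀ j ≤ (arm b x).len,
    (arm b x).p i = (arm b x).p j → i = j
  /-- interior points are not vertices -/
  int_ne_pos : ∀ b x, b ≠ x → ∀ i, 0 < i → i < (arm b x).len → ∀ v, (arm b x).p i ≠ pos v
  /-- interior points of different edges are different -/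
  int_disj : ∀ b x k y, b ≠ x → k ≠ y → ¬ (b = k ∧ x = y) → ¬ (b = y ∧ x = k) →
    ∀ i j, 0 < i → i < (arm b x).len → 0 < j → j < (arm k y).len →
      (arm b x).p i ≠ (arm k y).p j
  /-- no interleaving of two pieces of one edge or of two edges with a common end -/
  nc : ∀ b x k y, b ≠ x → k ≠ y → (b = k ∨ b = y ∨ x = k ∨ x = y) →
    ∀ i j, i < (arm b x).len → j < (arm k y).len → ¬ (arm b x).Hit (arm k y) i j

namespace CompDiag

variable {n : ℕ} (C : CompDiag n)

/-- The number of interleaving pairs of pieces of the edges `bx` and `ky`, `x, y ∉ {b, k}`,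
`x ≠ y`. -/
noncomputable def cr (b k : Fin n) : ℕ :=
  ∑ x, ∑ y, if x ≠ b ∧ x ≠ k ∧ y ≠ b ∧ y ≠ k ∧ x ≠ y then (C.arm b x).cr (C.arm k y) else 0

/-- The sum over all pairs of vertices: every crossing is counted four times. -/
noncomputable def total : ℕ := ∑ b, ∑ k ∈ Finset.univ.filter (fun k => b < k), C.cr b k

end CompDiag

/-- the bridge wanted for Harary–Hill -/
def CompStatement : Prop :=
  ∀ (n : ℕ) (D : Drawing (⊤ : SimpleGraph (Fin n))), ∃ C : CompDiag n,
    C.total ≤ 4 * D.crossings

end Vale.Agent.P040.Topo
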