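import Vale.Agent.P040.H837.CompDiag
import Vale.Agent.P040.H837.Ord
import Vale.Agent.P040.H709.Pieces

/-!
# Reading off the arc diagram of a drawing of `K_n` (helper837)
-/

set_option autoImplicit false

namespace Vale.Agent.P040.Topo

open Set

/-- the reversed reading -/
theorem exists_rev {S : Set Plane} {A : Arm} (R : Reading S A) : Nonempty (Reading S A.rev) := by
  have hlen : A.rev.len = A.len := rfl
  refine ⟨⟨fun s => R.γ (1 - s), fun i => 1 - R.t (A.len - i), ?_, ?_, ?_, ?_, ?_, ?_, ?_, ?_⟩⟩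
  · refine R.cont.comp (by fun_prop) ?_
    intro s hs
    exact ⟨by linarith [hs.2], by linarith [hs.1]⟩
  · intro s hs t ht hst
    have := R.inj (⟨by linarith [hs.2], by linarith [hs.1]⟩ : 1 - s ∈ Icc (0 : ℝ) 1)
      (⟨by linarith [ht.2], by linarith [ht.1]⟩ : 1 - t ∈ Icc (0 : ℝ) 1) hst
    linarith
  · refine Eq.trans ?_ R.img
    ext w
    constructor
    · rintro ⟨s, hs, rfl⟩
      exact ⟨1 - s, ⟨by linarith [hs.2], by linarith [hs.1]⟩, rfl⟩
    · rintro ⟨s, hs, rfl⟩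
      refine ⟨1 - s, ⟨by linarith [hs.2], by linarith [hs.1]⟩, ?_⟩
      dsimp only
      congr 1
      ring
  · simp only [Nat.sub_zero]
    rw [R.t_len, sub_self]
  · rw [hlen, Nat.sub_self, R.t_zero, sub_zero]
  · intro i hi
    rw [hlen] at hi
    have h1 : A.len - i = (A.len - (i + 1)) + 1 := by omega
    have h2 := R.t_lt (A.len - (i + 1)) (by omega)
    rw [← h1] at h2
    linarith
  · intro i hi
    rw [hlen] at hi
    have h1 : 1 - (1 - R.t (A.len - i)) = R.t (A.len - i) := by ring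
    rw [h1]
    exact R.γ_t _ (by omega)
  · intro i hi s hs
    rw [hlen] at hi
    rw [Arm.rev_page A hi]
    have h1 : A.len - i = (A.len - 1 - i) + 1 := by omega
    have h2 : A.len - (i + 1) = A.len - 1 - i := by omega
    refine R.sgn (A.len - 1 - i) (by omega) (1 - s) ?_
    rw [← h1]
    simp only [h2] at hs
    exact ⟨by linarith [hs.2], by linarith [hs.1]⟩

theorem hit_rev_right {A B B' : Arm}
    (hp : ∀ i ≤ B.len, B'.p i = B.p (B.len - i))
    (hq : ∀ i < B.len, B'.page i = B.page (B.len - 1 - i)) {i j : ℕ} (hj : j < B.len) :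
    A.Hit B' i j ↔ A.Hit B i (B.len - 1 - j) := by
  unfold Arm.Hit
  rw [hq j hj, hp j hj.le, hp (j + 1) hj]
  have h1 : B.len - (j + 1) = B.len - 1 - j := by omega
  have h2 : B.len - 1 - j + 1 = B.len - j := by omega
  rw [h1, h2, HH.inter_iff, HH.inter_iff, HH.LI_swap_right]

theorem four {n : ℕ} {b0 k0 x0 y0 b k x y b' k' x' y' : Fin n}
    (a1 : b0 ≠ k0) (a2 : x0 ≠ b0) (a3 : x0 ≠ k0) (a4 : y0 ≠ b0) (a5 : y0 ≠ k0) (a6 : x0 ≠ y0)
    (p1 : b < k) (q1 : b' < k')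
    (h1 : (s(b, x) = s(b0, x0) ∧ s(k, y) = s(k0, y0)) ∨ (s(b, x) = s(k0, y0) ∧ s(k, y) = s(b0, x0)))
    (h2 : (s(b', x') = s(b0, x0) ∧ s(k', y') = s(k0, y0)) ∨
      (s(b', x') = s(k0, y0) ∧ s(k', y') = s(b0, x0)))
    (e1 : (b0 = b ∨ b0 = k) ↔ (b0 = b' ∨ b0 = k')) (e2 : (k0 = b ∨ k0 = k) ↔ (k0 = b' ∨ k0 = k')) :
    b = b' ∧ k = k' ∧ x = x' ∧ y = y' := by
  simp only [Sym2.eq_iff] at h1 h2
  rcases h1 with ⟨⟨rfl, rfl⟩ | ⟨rfl, rfl⟩, ⟨rfl, rfl⟩ | ⟨rfl, rfl⟩⟩ |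
    ⟨⟨rfl, rfl⟩ | ⟨rfl, rfl⟩, ⟨rfl, rfl⟩ | ⟨rfl, rfl⟩⟩ <;>
  rcases h2 with ⟨⟨rfl, rfl⟩ | ⟨rfl, rfl⟩, ⟨rfl, rfl⟩ | ⟨rfl, rfl⟩⟩ |
    ⟨⟨rfl, rfl⟩ | ⟨rfl, rfl⟩, ⟨rfl, rfl⟩ | ⟨rfl, rfl⟩⟩ <;>
  first
  | exact ⟨rfl, rfl, rfl, rfl⟩
  | exact absurd p1 q1.not_gt
  | (exfalso; revert e1 e2; simp [*, Ne.symm a1, Ne.symm a2, Ne.symm a3, Ne.symm a4, Ne.symm a5])

/-- **Reading off the arc diagram of `K_n`.** -/
theorem readComp {n : ℕ} (S : Fin n → Fin n → Set Plane) (pos : Fin n → ℝ) (C : Set Plane)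
    (hpos : Function.Injective pos)
    (hS : ∀ b x, b < x → IsArc (S b x) (pos b, 0) (pos x, 0))
    (hfin : ∀ b x, b < x → {w | w ∈ S b x ∧ w.2 = 0}.Finite)
    (hsym : ∀ b x, S x b = S b x)
    (hCfin : C.Finite) (hCne : ∀ c ∈ C, c.2 ≠ 0)
    (hav : ∀ b x v, b ≠ x → ((pos v, 0) : Plane) ∈ S b x → v = b ∨ v = x)
    (hadj : ∀ b x y, b ≠ x → b ≠ y → x ≠ y → ∀ w ∈ S b x, w ∈ S b y → w = (pos b, 0))
    (hcr : ∀ b x k y, b ≠ x → k ≠ y → b ≠ k → b ≠ y → x ≠ k → x ≠ y →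
      ∀ w ∈ S b x, w ∈ S k y → w ∈ C)
    (huniq : ∀ c ∈ C, ∀ b x k y b' x' k' y', b ≠ x → k ≠ y → b ≠ k → b ≠ y → x ≠ k → x ≠ y →
      b' ≠ x' → k' ≠ y' → b' ≠ k' → b' ≠ y' → x' ≠ k' → x' ≠ y' →
      c ∈ S b x → c ∈ S k y → c ∈ S b' x' → c ∈ S k' y' →
      (s(b, x) = s(b', x') ∧ s(k, y) = s(k', y')) ∨ (s(b, x) = s(k', y') ∧ s(k, y) = s(b', x'))) :
    ∃ A : CompDiag n, A.pos = pos ∧ A.total ≤ 4 * C.ncard := by
  classical
  have hread : ∀ b x, ∃ A : Arm, b < x → A.p 0 = pos b ∧ A.p A.len = pos x ∧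
      Nonempty (Reading (S b x) A) := by
    intro b x
    by_cases h : b < x
    · obtain ⟨A, hA⟩ := exists_reading (hS b x h) (hfin b x h)
      exact ⟨A, fun _ => hA⟩
    · exact ⟨⟨1, one_pos, fun _ => 0, true⟩, fun h' => absurd h' h⟩
  choose A0 hA0 using hread
  set arm : Fin n → Fin n → Arm := fun b x => if b < x then A0 b x else (A0 x b).rev with harm
  have harm1 : ∀ b x, b < x → arm b x = A0 b x := fun b x h => if_pos h
  have harm2 : ∀ b x, b < x → arm x b = (A0 b x).rev := fun b x h => if_neg h.not_gt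
  have hR0 : ∀ b x, b ≠ x → Nonempty (Reading (S b x) (arm b x)) := by
    intro b x hbx
    rcases lt_or_gt_of_ne hbx with h | h
    · rw [harm1 b x h]
      exact (hA0 b x h).2.2
    · rw [harm2 x b h, hsym x b]
      exact exists_rev (hA0 x b h).2.2.some
  have hrl : ∀ b x, b ≠ x → (arm x b).len = (arm b x).len := by
    intro b x hbx
    rcases lt_or_gt_of_ne hbx with h | h
    · rw [harm1 b x h, harm2 b x h]
      rfl
    · rw [harm1 x b h, harm2 x b h]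
      rfl
  have hrp : ∀ b x, b ≠ x → ∀ i ≤ (arm b x).len,
      (arm x b).p i = (arm b x).p ((arm b x).len - i) := by
    intro b x hbx i hi
    rcases lt_or_gt_of_ne hbx with h | h
    · rw [harm1 b x h, harm2 b x h]
      rfl
    · rw [harm2 x b h] at hi ⊢
      rw [harm1 x b h]
      change i ≤ (A0 x b).len at hi
      change (A0 x b).p i = (A0 x b).p ((A0 x b).len - ((A0 x b).len - i))
      congr 1
      omega
  have hrq : ∀ b x, b ≠ x → ∀ i < (arm b x).len,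
      (arm x b).page i = (arm b x).page ((arm b x).len - 1 - i) := by
    intro b x hbx i hi
    rcases lt_or_gt_of_ne hbx with h | h
    · rw [harm1 b x h] at hi ⊢
      rw [harm2 b x h]
      exact Arm.rev_page _ hi
    · rw [harm2 x b h] at hi ⊢
      rw [harm1 x b h]
      change i < (A0 x b).len at hi
      change _ = (A0 x b).rev.page ((A0 x b).len - 1 - i)
      rw [Arm.rev_page _ (by omega)]
      congr 1
      omega
  have hz : ∀ b x, b ≠ x → (arm b x).p 0 = pos b := by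
    intro b x hbx
    rcases lt_or_gt_of_ne hbx with h | h
    · rw [harm1 b x h]
      exact (hA0 b x h).1
    · rw [harm2 x b h]
      exact (hA0 x b h).2.1
  have hl : ∀ b x, b ≠ x → (arm b x).p (arm b x).len = pos x := by
    intro b x hbx
    rw [hrp x b hbx.symm _ (hrl b x hbx).ge, hrl b x hbx, Nat.sub_self]
    exact hz x b hbx.symm
  let R : ∀ b x, b ≠ x → Reading (S b x) (arm b x) := fun b x h => (hR0 b x h).some
  have hself : ∀ b x, b ≠ x → ∀ i ≤ (arm b x).len, ∀ j ≤ (arm b x).len,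
      (arm b x).p i = (arm b x).p j → i = j :=
    fun b x h i hi j hj hij => (R b x h).p_inj hi hj hij
  have hint : ∀ b x, b ≠ x → ∀ i, 0 < i → i < (arm b x).len → ∀ v, (arm b x).p i ≠ pos v := by
    intro b x hbx i hi0 hi v hv
    have h1 := (R b x hbx).p_mem hi.le
    rw [hv] at h1
    rcases hav b x v hbx h1 with rfl | rfl
    · have := hself v x hbx i hi.le 0 (Nat.zero_le _) (hv.trans (hz v x hbx).symm)
      omega
    · have := hself b v hbx i hi.le _ le_rfl (hv.trans (hl b v hbx).symm)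
      omega
  have hdisj : ∀ b x k y, b ≠ x → k ≠ y → ¬ (b = k ∧ x = y) → ¬ (b = y ∧ x = k) →
      ∀ i j, 0 < i → i < (arm b x).len → 0 < j → j < (arm k y).len →
      (arm b x).p i ≠ (arm k y).p j := by
    intro b x k y hbx hky h1 h2 i j hi0 hi hj0 hj hij
    have m1 := (R b x hbx).p_mem hi.le
    have m2 := (R k y hky).p_mem hj.le
    rw [← hij] at m2
    by_cases c1 : b = k
    · subst c1
      have hxy : x ≠ y := fun h => h1 ⟨rfl, h⟩
      exact hint b x hbx i hi0 hi b (congrArg Prod.fst (hadj b x y hbx hky hxy _ m1 m2))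
    by_cases c2 : b = y
    · subst c2
      have hxk : x ≠ k := fun h => h2 ⟨rfl, h⟩
      rw [hsym b k] at m2
      exact hint b x hbx i hi0 hi b (congrArg Prod.fst (hadj b x k hbx (Ne.symm hky) hxk _ m1 m2))
    by_cases c3 : x = k
    · subst c3
      rw [hsym x b] at m1
      exact hint b x hbx i hi0 hi x
        (congrArg Prod.fst (hadj x b y (Ne.symm hbx) hky c2 _ m1 m2))
    by_cases c4 : x = y
    · subst c4
      rw [hsym x b] at m1
      rw [hsym x k] at m2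
      exact hint b x hbx i hi0 hi x
        (congrArg Prod.fst (hadj x b k (Ne.symm hbx) (Ne.symm hky) c1 _ m1 m2))
    exact hCne _ (hcr b x k y hbx hky c1 c2 c3 c4 _ m1 m2) rfl
  have hnc : ∀ b x k y, b ≠ x → k ≠ y → (b = k ∨ b = y ∨ x = k ∨ x = y) →
      ∀ i j, i < (arm b x).len → j < (arm k y).len → ¬ (arm b x).Hit (arm k y) i j := by
    intro b x k y hbx hky hor i j hi hj hH
    by_cases c0 : b = k ∧ x = y
    · obtain ⟨rfl, rfl⟩ := c0
      exact no_self_hit (R b x hbx) hi hj hH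
    by_cases c0' : b = y ∧ x = k
    · obtain ⟨rfl, rfl⟩ := c0'
      rw [hrl b x hbx] at hj
      rw [hit_rev_right (hrp b x hbx) (hrq b x hbx) hj] at hH
      exact no_self_hit (R b x hbx) hi (by omega) hH
    obtain ⟨w, hw, hw'⟩ := hit_meet (R b x hbx) (R k y hky) hi hj hH
    have m1 := (R b x hbx).piece_sub hi hw
    have m2 := (R k y hky).piece_sub hj hw'
    have hH2 := hH.2
    rw [HH.inter_iff] at hH2
    by_cases c1 : b = k
    · subst c1
      have hxy : x ≠ y := fun h => c0 ⟨rfl, h⟩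
      have h3 := hadj b x y hbx hky hxy _ m1 m2
      subst h3
      have hi' := (R b x hbx).first hi (by rw [hz b x hbx]; exact hw)
      have hj' := (R b y hky).first hj (by rw [hz b y hky]; exact hw')
      subst hi' hj'
      rw [hz b x hbx, hz b y hky] at hH2
      exact HH.not_LI_same _ _ _ hH2
    by_cases c2 : b = y
    · subst c2
      have hxk : x ≠ k := fun h => c0' ⟨rfl, h⟩
      rw [hsym b k] at m2
      have h3 := hadj b x k hbx (Ne.symm hky) hxk _ m1 m2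
      subst h3
      have hi' := (R b x hbx).first hi (by rw [hz b x hbx]; exact hw)
      have hj' := (R k b hky).last hj (by rw [hl k b hky]; exact hw')
      subst hi'
      rw [hj', hz b x hbx, hl k b hky] at hH2
      exact HH.not_LI_same'' _ _ _ hH2
    by_cases c3 : x = k
    · subst c3
      rw [hsym x b] at m1
      have h3 := hadj x b y (Ne.symm hbx) hky c2 _ m1 m2
      subst h3
      have hi' := (R b x hbx).last hi (by rw [hl b x hbx]; exact hw)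
      have hj' := (R x y hky).first hj (by rw [hz x y hky]; exact hw')
      subst hj'
      rw [hi', hl b x hbx, hz x y hky] at hH2
      exact HH.not_LI_same''' _ _ _ hH2
    have c4 : x = y := by tauto
    subst c4
    rw [hsym x b] at m1
    rw [hsym x k] at m2
    have h3 := hadj x b k (Ne.symm hbx) (Ne.symm hky) c1 _ m1 m2
    subst h3
    have hi' := (R b x hbx).last hi (by rw [hl b x hbx]; exact hw)
    have hj' := (R k x hky).last hj (by rw [hl k x hky]; exact hw')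
    rw [hi', hj', hl b x hbx, hl k x hky] at hH2
    exact HH.not_LI_same' _ _ _ hH2
  let AD : CompDiag n := ⟨pos, arm, hpos, hz, hl, hrl, hrp, hrq, hself, hint, hdisj, hnc⟩
  refine ⟨AD, rfl, ?_⟩
  -- counting
  let G : (Fin n × Fin n × Fin n × Fin n) → Prop := fun q =>
    q.1 < q.2.1 ∧ q.2.2.1 ≠ q.1 ∧ q.2.2.1 ≠ q.2.1 ∧ q.2.2.2 ≠ q.1 ∧ q.2.2.2 ≠ q.2.1 ∧
      q.2.2.1 ≠ q.2.2.2
  let H : (Fin n × Fin n × Fin n × Fin n) → Finset (ℕ × ℕ) := fun q =>
    (Finset.range (arm q.1 q.2.2.1).len ×ˢ Finset.range (arm q.2.1 q.2.2.2).len).filter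
      fun r => (arm q.1 q.2.2.1).Hit (arm q.2.1 q.2.2.2) r.1 r.2
  let I : Finset (Fin n × Fin n × Fin n × Fin n) := Finset.univ.filter G
  have htot : AD.total = (I.sigma H).card := by
    rw [Finset.card_sigma, Finset.sum_filter]
    simp only [Fintype.sum_prod_type]
    refine Finset.sum_congr rfl fun b _ => ?_
    rw [Finset.sum_filter]
    refine Finset.sum_congr rfl fun k _ => ?_
    by_cases h : b < k
    · rw [if_pos h]
      refine Finset.sum_congr rfl fun x _ => ?_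
      refine Finset.sum_congr rfl fun y _ => ?_
      by_cases h' : x ≠ b ∧ x ≠ k ∧ y ≠ b ∧ y ≠ k ∧ x ≠ y
      · rw [if_pos h', if_pos (show G (b, k, x, y) from ⟨h, h'⟩)]
        rfl
      · rw [if_neg h', if_neg (fun g : G (b, k, x, y) => h' g.2)]
    · rw [if_neg h]
      refine (Finset.sum_eq_zero fun x _ => Finset.sum_eq_zero fun y _ => ?_).symm
      exact if_neg (fun g : G (b, k, x, y) => h g.1)
  have hmem : ∀ s ∈ I.sigma H, G s.1 ∧ s.2.1 < (arm s.1.1 s.1.2.2.1).len ∧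
      s.2.2 < (arm s.1.2.1 s.1.2.2.2).len ∧
      (arm s.1.1 s.1.2.2.1).Hit (arm s.1.2.1 s.1.2.2.2) s.2.1 s.2.2 := by
    intro s hs
    rw [Finset.mem_sigma] at hs
    obtain ⟨h1, h2⟩ := hs
    rw [Finset.mem_filter] at h1
    rw [Finset.mem_filter, Finset.mem_product, Finset.mem_range, Finset.mem_range] at h2
    exact ⟨h1.2, h2.1.1, h2.1.2, h2.2⟩
  have hex : ∀ s : (_ : Fin n × Fin n × Fin n × Fin n) × (ℕ × ℕ), ∃ w : Plane,
      s ∈ I.sigma H → ∃ (h : s.1.1 ≠ s.1.2.2.1) (h' : s.1.2.1 ≠ s.1.2.2.2),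
        w ∈ (R _ _ h).piece s.2.1 ∧ w ∈ (R _ _ h').piece s.2.2 := by
    intro s
    by_cases hs : s ∈ I.sigma H
    · obtain ⟨h1, h2, h3, h4⟩ := hmem s hs
      obtain ⟨w, hw⟩ := hit_meet (R _ _ (Ne.symm h1.2.1)) (R _ _ (Ne.symm h1.2.2.2.2.1)) h2 h3 h4
      exact ⟨w, fun _ => ⟨Ne.symm h1.2.1, Ne.symm h1.2.2.2.2.1, hw.1, hw.2⟩⟩
    · exact ⟨(0, 0), fun h => absurd h hs⟩
  choose pt hptm using hex
  have hptC : ∀ s ∈ I.sigma H, pt s ∈ C := by
    intro s hs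
    obtain ⟨h1, h2, h3, h4⟩ := hmem s hs
    obtain ⟨e1, e2, hw, hw'⟩ := hptm s hs
    exact hcr _ _ _ _ e1 e2 h1.1.ne (Ne.symm h1.2.2.2.1) h1.2.2.1 h1.2.2.2.2.2 _
      ((R _ _ e1).piece_sub h2 hw) ((R _ _ e2).piece_sub h3 hw')
  rw [htot, Set.ncard_eq_toFinset_card C hCfin, mul_comm]
  have hmaps : ∀ s ∈ I.sigma H, pt s ∈ hCfin.toFinset := fun s hs => by
    have := hptC s hs
    simpa using this
  rw [mul_comm]
  refine Finset.card_le_mul_card_image_of_maps_to hmaps 4 ?_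
  intro c hc
  by_cases hne : ((I.sigma H).filter fun s => pt s = c).Nonempty
  swap
  · rw [Finset.not_nonempty_iff_eq_empty.1 hne]
    simp
  obtain ⟨⟨⟨b0, k0, x0, y0⟩, i0, j0⟩, hs0⟩ := hne
  rw [Finset.mem_filter] at hs0
  obtain ⟨hs0, hpt0⟩ := hs0
  obtain ⟨g0, hi0, hj0, hH0⟩ := hmem _ hs0
  obtain ⟨e1, e2, hw0, hw0'⟩ := hptm _ hs0
  have hC0 := hptC _ hs0
  rw [hpt0] at hw0 hw0' hC0
  dsimp only at g0 hi0 hj0 hH0 e1 e2 hw0 hw0'
  have key : ∀ s ∈ (I.sigma H).filter fun s => pt s = c,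
      (s(s.1.1, s.1.2.2.1) = s(b0, x0) ∧ s(s.1.2.1, s.1.2.2.2) = s(k0, y0)) ∨
      (s(s.1.1, s.1.2.2.1) = s(k0, y0) ∧ s(s.1.2.1, s.1.2.2.2) = s(b0, x0)) := by
    intro s hs
    rw [Finset.mem_filter] at hs
    obtain ⟨hs, hpt⟩ := hs
    obtain ⟨g1, hi, hj, hH⟩ := hmem _ hs
    obtain ⟨f1, f2, hw, hw'⟩ := hptm _ hs
    rw [hpt] at hw hw'
    exact huniq c hC0 _ _ _ _ _ _ _ _ f1 f2 g1.1.ne (Ne.symm g1.2.2.2.1) g1.2.2.1 g1.2.2.2.2.2
      e1 e2 g0.1.ne (Ne.symm g0.2.2.2.1) g0.2.2.1 g0.2.2.2.2.2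
      ((R _ _ f1).piece_sub hi hw) ((R _ _ f2).piece_sub hj hw')
      ((R _ _ e1).piece_sub hi0 hw0) ((R _ _ e2).piece_sub hj0 hw0')
  have hcard : ((I.sigma H).filter fun s => pt s = c).card ≤
      (Finset.univ : Finset (Bool × Bool)).card := by
    refine Finset.card_le_card_of_injOn
      (fun s => (decide (b0 = s.1.1 ∨ b0 = s.1.2.1), decide (k0 = s.1.1 ∨ k0 = s.1.2.1)))
      (fun _ _ => Finset.mem_univ _) ?_
    rintro ⟨⟨b, k, x, y⟩, i, j⟩ hs ⟨⟨b', k', x', y'⟩, i', j'⟩ hs' heq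
    have hk1 := key _ hs
    have hk2 := key _ hs'
    rw [Finset.mem_coe, Finset.mem_filter] at hs hs'
    obtain ⟨hs, hpt⟩ := hs
    obtain ⟨hs', hpt'⟩ := hs'
    obtain ⟨g1, hi, hj, hH⟩ := hmem _ hs
    obtain ⟨g1', hi', hj', hH'⟩ := hmem _ hs'
    obtain ⟨f1, f2, hw, hw'⟩ := hptm _ hs
    obtain ⟨f1', f2', hv, hv'⟩ := hptm _ hs'
    rw [hpt] at hw hw'
    rw [hpt'] at hv hv'
    simp only [Prod.mk.injEq, decide_eq_decide] at heq
    dsimp only at hk1 hk2 g1 g1' hi hj hi' hj' f1 f2 f1' f2' hw hw' hv hv'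
    have hq : b = b' ∧ k = k' ∧ x = x' ∧ y = y' :=
      four g0.1.ne g0.2.1 g0.2.2.1 g0.2.2.2.1 g0.2.2.2.2.1 g0.2.2.2.2.2 g1.1 g1'.1 hk1 hk2
        heq.1 heq.2
    obtain ⟨rfl, rfl, rfl, rfl⟩ := hq
    have h1 := (R b x f1).piece_inj hi hi' hw hv (hCne _ hC0)
    have h2 := (R k y f2).piece_inj hj hj' hw' hv' (hCne _ hC0)
    rw [h1, h2]
  simpa using hcard

end Vale.Agent.P040.Topo
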