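import Vale.Agent.P040.H837.HHTop

/-!
# Harary–Hill from the inequality for the total of an arc diagram (helper837)
-/

set_option autoImplicit false

namespace Vale.Agent.P040.HH

open Topo Finset Vale.Agent.P040.Even

/-- the conclusion of `Slot.hh_top` -/
def TotalIneq : Prop :=
  ∀ p : ℕ, 3 ≤ p → ∀ C : CompDiag (2 * p), p * (p - 1) ^ 2 * (p - 2) ≤ C.total

theorem loopIneq_of_total (H : TotalIneq) (p : ℕ) (hp : 3 ≤ p) : LoopIneq p := by
  intro C
  have h1 := H p hp C
  have h2 : ∑ b, ∑ k ∈ univ.filter (fun k => k ≠ b), (C.cr b k : ℝ) = 2 * (C.total : ℝ) := by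
    have := sum_ordered C
    exact_mod_cast this
  rw [h2]
  have h3 : ((p * (p - 1) ^ 2 * (p - 2) : ℕ) : ℝ) ≤ (C.total : ℝ) := by exact_mod_cast h1
  push_cast [Nat.cast_sub (show 1 ≤ p by omega), Nat.cast_sub (show 2 ≤ p by omega)] at h3
  nlinarith

/-- **Harary–Hill** for even `n` -/
theorem hill_le_of_even (H : TotalIneq) {n : ℕ} (hn : _root_.Even n)
    (D : Drawing (⊤ : SimpleGraph (Fin n))) : hill n ≤ D.crossings := by
  obtain ⟨p, rfl⟩ := hn
  have key : ∀ m : ℕ, m = 2 * p → ∀ D : Drawing (⊤ : SimpleGraph (Fin m)),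
      hill m ≤ D.crossings := by
    intro m hm
    subst hm
    exact hill_even (loopIneq_of_total H) p
  exact key _ (by ring) D

/-- all `n`: the loss for odd `n` is a factor `1 - 2/(p(2p-3))`, `p = ⌊n/2⌋` -/
theorem hill_factor (H : TotalIneq) {n : ℕ} (hn : 4 ≤ n)
    (D : Drawing (⊤ : SimpleGraph (Fin n))) :
    (1 - 2 / (((n / 2 : ℕ) : ℝ) * (2 * ((n / 2 : ℕ) : ℝ) - 3))) * hill n ≤ D.crossings := by
  rcases Nat.even_or_odd' n with ⟨p, rfl | rfl⟩
  · have h1 := hill_even (loopIneq_of_total H) p D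
    have h2 : (hill (2 * p) : ℝ) ≤ D.crossings := by exact_mod_cast h1
    have h3 : 2 * p / 2 = p := by omega
    rw [h3]
    have hp : (2 : ℝ) ≤ p := by exact_mod_cast (show 2 ≤ p by omega)
    have h4 : 0 ≤ 2 / ((p : ℝ) * (2 * (p : ℝ) - 3)) := by
      apply div_nonneg (by norm_num)
      apply mul_nonneg <;> linarith
    have h5 : (0 : ℝ) ≤ hill (2 * p) := Nat.cast_nonneg _
    nlinarith
  · have h3 : (2 * p + 1) / 2 = p := by omega
    rw [h3]
    exact hill_odd_factor (loopIneq_of_total H) (by omega) D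

/-- **Asymptotically**: the error is at most quadratic, for every `n`. -/
theorem hill_sub_le (H : TotalIneq) {n : ℕ} (D : Drawing (⊤ : SimpleGraph (Fin n))) :
    (hill n : ℝ) - (n : ℝ) ^ 2 / 8 ≤ D.crossings := by
  rcases Nat.lt_or_ge n 4 with hn | hn
  · have : hill n = 0 := by interval_cases n <;> rfl
    rw [this]
    have h1 : (0 : ℝ) ≤ (n : ℝ) ^ 2 / 8 := by positivity
    have h2 : (0 : ℝ) ≤ D.crossings := Nat.cast_nonneg _
    push_cast
    linarith
  rcases Nat.even_or_odd' n with ⟨p, rfl | rfl⟩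
  · have h1 := hill_even (loopIneq_of_total H) p D
    have h2 : (hill (2 * p) : ℝ) ≤ D.crossings := by exact_mod_cast h1
    have h3 : (0 : ℝ) ≤ ((2 * p : ℕ) : ℝ) ^ 2 / 8 := by positivity
    linarith
  · have h1 := hill_odd_factor (loopIneq_of_total H) (p := p) (by omega) D
    have hp : (2 : ℝ) ≤ p := by exact_mod_cast (show 2 ≤ p by omega)
    have h2 : 0 < 2 * (p : ℝ) - 3 := by linarith
    have h3 : 2 / ((p : ℝ) * (2 * p - 3)) * (hill (2 * p + 1) : ℝ) ≤
        ((2 * p + 1 : ℕ) : ℝ) ^ 2 / 8 := by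
      rw [hill_odd_eq (by omega)]
      have h4 : 2 / ((p : ℝ) * (2 * p - 3)) * (p * p * (p - 1) * (p - 1) / 4) =
          (p * (p - 1) ^ 2 / 2) / (2 * p - 3) := by
        field_simp
        ring
      rw [h4, div_le_iff₀ h2]
      push_cast
      nlinarith [mul_nonneg (show (0 : ℝ) ≤ p by linarith) (show (0 : ℝ) ≤ p - 2 by linarith),
        mul_nonneg (mul_nonneg (show (0 : ℝ) ≤ p by linarith) (show (0 : ℝ) ≤ p - 2 by linarith))
          (show (0 : ℝ) ≤ p - 2 by linarith)]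
    have h5 : (1 - 2 / ((p : ℝ) * (2 * p - 3))) * (hill (2 * p + 1) : ℝ) =
        (hill (2 * p + 1) : ℝ) - 2 / ((p : ℝ) * (2 * p - 3)) * (hill (2 * p + 1) : ℝ) := by ring
    rw [h5] at h1
    linarith

end Vale.Agent.P040.HH
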