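import Vale.Agent.P040.H84.Machine
import Vale.Agent.P040.H837.HHEnd

/-!
# Exact Harary–Hill for even `n`
-/

set_option autoImplicit false

namespace Vale.Agent.P040.HH

open Topo Vale.Agent.P040.Even

/-- the inequality of component diagrams -/
theorem totalIneq : TotalIneq := fun _ hp C =>
  Pst.hill_of_input (fun _ hh leaf hl => H84.selInput hh leaf hl) hp C

/-- asymptotically exact -/
theorem hill_lim {ε : ℝ} (hε : 0 < ε) : ∃ N : ℕ, ∀ n : ℕ, N ≤ n →
    ∀ D : Drawing (⊤ : SimpleGraph (Fin n)), (1 - ε) * (hill n : ℝ) ≤ D.crossings := by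
  obtain ⟨N, hN⟩ := exists_nat_gt (2 / ε)
  refine ⟨max (2 * N) 6, fun n hn D => ?_⟩
  have h6 : 6 ≤ n := le_trans (le_max_right _ _) hn
  have h2N : 2 * N ≤ n := le_trans (le_max_left _ _) hn
  have h1 := hill_factor totalIneq (show 4 ≤ n by omega) D
  have hp : (3 : ℝ) ≤ ((n / 2 : ℕ) : ℝ) := by exact_mod_cast (show 3 ≤ n / 2 by omega)
  have hpN : (N : ℝ) ≤ ((n / 2 : ℕ) : ℝ) := by exact_mod_cast (show N ≤ n / 2 by omega)
  set p : ℝ := ((n / 2 : ℕ) : ℝ) with hpd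
  have h3 : 2 / (p * (2 * p - 3)) ≤ ε := by
    rw [div_le_iff₀ (by apply mul_pos <;> linarith)]
    rw [div_lt_iff₀ hε] at hN
    have h4 : (N : ℝ) ≤ p * (2 * p - 3) := by nlinarith
    have h6 := mul_le_mul_of_nonneg_right h4 hε.le
    linarith [mul_comm ε (p * (2 * p - 3))]
  have h5 : (0 : ℝ) ≤ hill n := Nat.cast_nonneg _
  nlinarith

end Vale.Agent.P040.HH
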