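import Vale.Agent.P040.H837.Comp
import Vale.Agent.P040.Even.Complete

/-!
# Exact Harary–Hill for even `n`: the final arithmetic (helper837)

`LoopIneq p`: the inequality for arc diagrams of `K_{2p}` which comes from `loop_static`.
-/

set_option autoImplicit false

namespace Vale.Agent.P040.HH

open Topo Finset Vale.Agent.P040.Even

/-- the inequality delivered by `H252.loop_static` -/
def LoopIneq (p : ℕ) : Prop :=
  ∀ C : CompDiag (2 * p), 2 * (p : ℝ) * (p - 1) ^ 2 * (p - 2) ≤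
    ∑ b, ∑ k ∈ univ.filter (fun k => k ≠ b), (C.cr b k : ℝ)

theorem arm_cr_comm (A B : Arm) : A.cr B = B.cr A := by
  classical
  unfold Arm.cr
  refine Finset.card_bij' (fun q _ => (q.2, q.1)) (fun q _ => (q.2, q.1)) ?_ ?_ ?_ ?_
  · rintro ⟨i, j⟩ hq
    rw [Finset.mem_filter, Finset.mem_product] at hq ⊢
    refine ⟨⟨hq.1.2, hq.1.1⟩, hq.2.1.symm, ?_⟩
    have := hq.2.2
    rw [inter_iff] at this ⊢
    exact (LI_comm _ _ _ _).1 this
  · rintro ⟨i, j⟩ hq
    rw [Finset.mem_filter, Finset.mem_product] at hq ⊢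
    refine ⟨⟨hq.1.2, hq.1.1⟩, hq.2.1.symm, ?_⟩
    have := hq.2.2
    rw [inter_iff] at this ⊢
    exact (LI_comm _ _ _ _).1 this
  · intro _ _; rfl
  · intro _ _; rfl

theorem comp_cr_comm {n : ℕ} (C : CompDiag n) (b k : Fin n) : C.cr b k = C.cr k b := by
  unfold CompDiag.cr
  rw [Finset.sum_comm]
  refine Finset.sum_congr rfl fun y _ => Finset.sum_congr rfl fun x _ => ?_
  rw [arm_cr_comm]
  refine if_congr ?_ rfl rfl
  constructor
  · rintro ⟨h1, h2, h3, h4, h5⟩
    exact ⟨h4, h3, h2, h1, Ne.symm h5⟩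
  · rintro ⟨h1, h2, h3, h4, h5⟩
    exact ⟨h4, h3, h2, h1, Ne.symm h5⟩

/-- the sum over ordered pairs is twice the total -/
theorem sum_ordered {n : ℕ} (C : CompDiag n) :
    ∑ b, ∑ k ∈ univ.filter (fun k => k ≠ b), C.cr b k = 2 * C.total := by
  have h1 : ∀ b : Fin n, ∑ k ∈ univ.filter (fun k => k ≠ b), C.cr b k =
      (∑ k ∈ univ.filter (fun k => b < k), C.cr b k) +
        ∑ k ∈ univ.filter (fun k => k < b), C.cr b k := by
    intro b
    rw [← Finset.sum_union]
    · apply Finset.sum_congr _ fun _ _ => rfl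
      ext k
      simp only [mem_filter, mem_univ, true_and, mem_union]
      constructor
      · intro h
        rcases lt_or_gt_of_ne h with h | h
        · exact Or.inr h
        · exact Or.inl h
      · rintro (h | h)
        · exact h.ne'
        · exact h.ne
    · rw [Finset.disjoint_left]
      intro k hk hk'
      rw [mem_filter] at hk hk'
      exact absurd hk.2 hk'.2.not_gt
  rw [Finset.sum_congr rfl fun b _ => h1 b, Finset.sum_add_distrib, two_mul]
  congr 1
  rw [Finset.sum_sigma', CompDiag.total, Finset.sum_sigma']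
  refine Finset.sum_bij' (fun q _ => ⟨q.2, q.1⟩) (fun q _ => ⟨q.2, q.1⟩) ?_ ?_ ?_ ?_ ?_
  · rintro ⟨b, k⟩ hq
    simpa using hq
  · rintro ⟨b, k⟩ hq
    simpa using hq
  · intro _ _; rfl
  · intro _ _; rfl
  · rintro ⟨b, k⟩ _
    exact comp_cr_comm C b k

/-- **Harary–Hill for even `n`** from the loop inequality. -/
theorem hill_even (H : ∀ p : ℕ, 3 ≤ p → LoopIneq p) (p : ℕ)
    (D : Drawing (⊤ : SimpleGraph (Fin (2 * p)))) : hill (2 * p) ≤ D.crossings := by
  rcases Nat.lt_or_ge p 3 with hp | hp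
  · have : hill (2 * p) = 0 := by
      interval_cases p <;> rfl
    omega
  obtain ⟨C, hC⟩ := exists_compDiag (2 * p) D
  have h1 := H p hp C
  have h2 : ∑ b, ∑ k ∈ univ.filter (fun k => k ≠ b), (C.cr b k : ℝ) = 2 * (C.total : ℝ) := by
    have := sum_ordered C
    exact_mod_cast this
  rw [h2] at h1
  have h3 : (C.total : ℝ) ≤ 4 * D.crossings := by exact_mod_cast hC
  have h4 : (p : ℝ) * (p - 1) * (p - 1) * (p - 2) ≤ 4 * D.crossings := by nlinarith
  have h5 : p * (p - 1) * (p - 1) * (p - 2) ≤ 4 * D.crossings := by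
    have : ((p * (p - 1) * (p - 1) * (p - 2) : ℕ) : ℝ) ≤ ((4 * D.crossings : ℕ) : ℝ) := by
      push_cast [Nat.cast_sub (show 1 ≤ p by omega), Nat.cast_sub (show 2 ≤ p by omega)]
      exact h4
    exact_mod_cast this
  unfold hill
  rw [show 2 * p / 2 = p by omega, show (2 * p - 1) / 2 = p - 1 by omega,
    show (2 * p - 2) / 2 = p - 1 by omega, show (2 * p - 3) / 2 = p - 2 by omega]
  omega

/-- deletion of a vertex -/
theorem delete_one {n B : ℕ} (hB : ∀ D : Drawing (⊤ : SimpleGraph (Fin n)), B ≤ D.crossings)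
    (D : Drawing (⊤ : SimpleGraph (Fin (n + 1)))) : (n + 1) * B ≤ (n - 3) * D.crossings := by
  classical
  obtain ⟨D', h1, h2⟩ := D.uncross_gen
  have hD' : Good D' := h2
  have hadj : ∀ (i : Fin (n + 1)) (u v : Fin n), (⊤ : SimpleGraph (Fin n)).Adj u v →
      (⊤ : SimpleGraph (Fin (n + 1))).Adj (i.succAbove u) (i.succAbove v) := by
    intro i u v h
    rw [SimpleGraph.top_adj] at h ⊢
    exact fun h' => h (Fin.succAbove_right_injective h')
  have key := Drawing.sum_sub_le (H := (⊤ : SimpleGraph (Fin n))) D' hD'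
    (fun i : Fin (n + 1) => i.succAbove) (fun i => Fin.succAbove_right_injective) hadj (n - 3)
    (by
      intro a b c d hab hcd hac had hbc hbd
      rw [SimpleGraph.top_adj] at hab hcd
      have hsub : {i : Fin (n + 1) | (∃ u v, (⊤ : SimpleGraph (Fin n)).Adj u v ∧
          i.succAbove u = a ∧ i.succAbove v = b) ∧ (∃ u v, (⊤ : SimpleGraph (Fin n)).Adj u v ∧
          i.succAbove u = c ∧ i.succAbove v = d)} ⊆
          ((univ \ {a, b, c, d} : Finset (Fin (n + 1))) : Set (Fin (n + 1))) := by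
        rintro i ⟨⟨u, v, -, rfl, rfl⟩, ⟨u', v', -, rfl, rfl⟩⟩
        simp only [coe_sdiff, coe_univ, coe_insert, coe_singleton, Set.mem_sdiff, Set.mem_univ,
          true_and, Set.mem_insert_iff, Set.mem_singleton_iff, not_or]
        exact ⟨(Fin.succAbove_ne i u).symm, (Fin.succAbove_ne i v).symm,
          (Fin.succAbove_ne i u').symm, (Fin.succAbove_ne i v').symm⟩
      refine (Set.ncard_le_ncard hsub (Finset.finite_toSet _)).trans ?_
      rw [Set.ncard_coe_finset, Finset.card_sdiff_of_subset (Finset.subset_univ _),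
        Finset.card_univ, Fintype.card_fin,
        Finset.card_insert_of_notMem (by simp [hab, hac, had]),
        Finset.card_insert_of_notMem (by simp [hbc, hbd]),
        Finset.card_insert_of_notMem (by simp [hcd]), Finset.card_singleton]
      omega)
  calc (n + 1) * B = ∑ _i : Fin (n + 1), B := by
        rw [Finset.sum_const, smul_eq_mul, Finset.card_univ, Fintype.card_fin]
    _ ≤ ∑ i : Fin (n + 1), (D'.sub (i.succAbove) Fin.succAbove_right_injective
          (hadj i)).crossings := Finset.sum_le_sum fun i _ => hB _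
    _ ≤ (n - 3) * D'.crossings := key
    _ ≤ (n - 3) * D.crossings := Nat.mul_le_mul_left _ h1

/-- **Odd `n`**: `(2p+1) Z(2p) ≤ (2p-3) c(D)`. -/
theorem hill_odd (H : ∀ p : ℕ, 3 ≤ p → LoopIneq p) (p : ℕ)
    (D : Drawing (⊤ : SimpleGraph (Fin (2 * p + 1)))) :
    (2 * p + 1) * hill (2 * p) ≤ (2 * p - 3) * D.crossings :=
  delete_one (hill_even H p) D

theorem hill_even_eq {p : ℕ} (hp : 2 ≤ p) :
    (hill (2 * p) : ℝ) = p * (p - 1) * (p - 1) * (p - 2) / 4 := by
  have h4 : 4 ∣ p * (p - 1) * (p - 1) * (p - 2) := by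
    obtain ⟨q, rfl⟩ : ∃ q, p = q + 2 := ⟨p - 2, by omega⟩
    simp only [Nat.add_sub_cancel, show q + 2 - 1 = q + 1 by omega]
    rcases Nat.even_or_odd q with ⟨r, rfl⟩ | ⟨r, rfl⟩
    · exact ⟨(r + 1) * (r + r + 1) * (r + r + 1) * r, by ring⟩
    · exact ⟨(2 * r + 3) * (r + 1) * (r + 1) * (2 * r + 1), by ring⟩
  unfold hill
  rw [show 2 * p / 2 = p by omega, show (2 * p - 1) / 2 = p - 1 by omega,
    show (2 * p - 2) / 2 = p - 1 by omega, show (2 * p - 3) / 2 = p - 2 by omega,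
    Nat.cast_div h4 (by norm_num)]
  push_cast [Nat.cast_sub (show 1 ≤ p by omega), Nat.cast_sub (show 2 ≤ p by omega)]
  ring

theorem hill_odd_eq {p : ℕ} (hp : 1 ≤ p) :
    (hill (2 * p + 1) : ℝ) = p * p * (p - 1) * (p - 1) / 4 := by
  have h4 : 4 ∣ p * p * (p - 1) * (p - 1) := by
    obtain ⟨q, rfl⟩ : ∃ q, p = q + 1 := ⟨p - 1, by omega⟩
    simp only [Nat.add_sub_cancel]
    rcases Nat.even_or_odd q with ⟨r, rfl⟩ | ⟨r, rfl⟩
    · exact ⟨(r + r + 1) * (r + r + 1) * r * r, by ring⟩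
    · exact ⟨(r + 1) * (r + 1) * (2 * r + 1) * (2 * r + 1), by ring⟩
  unfold hill
  rw [show (2 * p + 1) / 2 = p by omega, show (2 * p + 1 - 1) / 2 = p by omega,
    show (2 * p + 1 - 2) / 2 = p - 1 by omega, show (2 * p + 1 - 3) / 2 = p - 1 by omega,
    Nat.cast_div h4 (by norm_num)]
  push_cast [Nat.cast_sub hp]
  ring

/-- **Odd `n = 2p + 1`**, as a factor. -/
theorem hill_odd_factor (H : ∀ p : ℕ, 3 ≤ p → LoopIneq p) {p : ℕ} (hp : 2 ≤ p)
    (D : Drawing (⊤ : SimpleGraph (Fin (2 * p + 1)))) :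
    (1 - 2 / ((p : ℝ) * (2 * p - 3))) * hill (2 * p + 1) ≤ D.crossings := by
  have h1 := hill_odd H p D
  have hp' : (2 : ℝ) ≤ p := by exact_mod_cast hp
  have h2 : ((2 * p + 1 : ℕ) : ℝ) * (hill (2 * p) : ℝ) ≤ ((2 * p - 3 : ℕ) : ℝ) * D.crossings := by
    exact_mod_cast h1
  rw [hill_even_eq hp] at h2
  rw [hill_odd_eq (by omega)]
  push_cast [Nat.cast_sub (show 3 ≤ 2 * p by omega)] at h2
  have h3 : 0 < 2 * (p : ℝ) - 3 := by linarith
  have h4 : (1 - 2 / ((p : ℝ) * (2 * p - 3))) * (p * p * (p - 1) * (p - 1) / 4) =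
      ((2 * p + 1) * (p * (p - 1) * (p - 1) * (p - 2) / 4)) / (2 * p - 3) := by
    field_simp
    ring
  rw [h4, div_le_iff₀ h3]
  linarith

end Vale.Agent.P040.HH
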