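import Vale.Agent.P040.H837.Ord
import Vale.Agent.P040.H837.CompDiag
import Vale.Agent.P040.H242.Rot

/-!
# Arms with points in a linear order (helper837)
-/

set_option autoImplicit false

namespace Vale.Agent.P040.HH

open Topo Bp

/-- an arm with points in a linear order -/
structure LArm (Λ : Type) where
  len : ℕ
  len_pos : 0 < len
  p : ℕ → Λ
  up : Bool

namespace LArm

variable {Λ : Type}

/-- the page of a piece -/
def page (A : LArm Λ) (j : ℕ) : Bool := if Even j then A.up else !A.up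

theorem page_zero (A : LArm Λ) : A.page 0 = A.up := by
  simp [page]

theorem page_succ (A : LArm Λ) (j : ℕ) : A.page (j + 1) = !A.page j := by
  unfold page
  by_cases h : Even j
  · have : ¬ Even (j + 1) := by rw [Nat.even_add_one]; exact not_not.2 h
    simp [h, this]
  · have : Even (j + 1) := by rw [Nat.even_add_one]; exact h
    simp [h, this]

/-- interleaving pieces in the same page -/
def Hit [LinearOrder Λ] (A B : LArm Λ) (i j : ℕ) : Prop :=
  A.page i = B.page j ∧ LI (A.p i) (A.p (i + 1)) (B.p j) (B.p (j + 1))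

theorem Hit.symm [LinearOrder Λ] {A B : LArm Λ} {i j : ℕ} (h : A.Hit B i j) : B.Hit A j i :=
  ⟨h.1.symm, (LI_comm _ _ _ _).1 h.2⟩

/-- the image in the reals -/
def map (f : Λ → ℝ) (A : LArm Λ) : Arm := ⟨A.len, A.len_pos, fun i => f (A.p i), A.up⟩

theorem map_page (f : Λ → ℝ) (A : LArm Λ) (i : ℕ) : (A.map f).page i = A.page i := rfl

theorem map_hit [LinearOrder Λ] {S : Set Λ} {f : Λ → ℝ} (hf : StrictMonoOn f S) {A B : LArm Λ}
    (hA : ∀ i ≤ A.len, A.p i ∈ S) (hB : ∀ i ≤ B.len, B.p i ∈ S) {i j : ℕ} (hi : i < A.len)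
    (hj : j < B.len) : (A.map f).Hit (B.map f) i j ↔ A.Hit B i j := by
  unfold Arm.Hit Hit
  rw [map_page, map_page]
  change _ ∧ Inter (f _) (f _) (f _) (f _) ↔ _
  rw [LI_map hf (hA i hi.le) (hA (i + 1) hi) (hB j hj.le) (hB (j + 1) hj)]

end LArm

/-! ### the order of the directions -/

theorem key_lt_iff_th {v q r : ℝ} (hq : v ≠ q) (hr : v ≠ r) :
    key v q < key v r ↔ th v q < th v r := by
  rw [key_lt_iff hq hr, th_lt_iff (Ne.symm hq) (Ne.symm hr)]
  constructor
  · rintro (h | h | h)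
    · exact Or.inl h
    · exact Or.inr (Or.inr ⟨h.2, h.1⟩)
    · exact Or.inr (Or.inl h)
  · rintro (h | h | h)
    · exact Or.inl h
    · exact Or.inr (Or.inr h)
    · exact Or.inr (Or.inl ⟨h.2, h.1⟩)

/-- two pieces at a common vertex -/
theorem LI_th {v q r : ℝ} {s s' : ℝ} (t t' : ℝ) (hs : s < s') (hq : v ≠ q) (hr : v ≠ r)
    (hqr : q ≠ r) :
    LI (mk v s) (mk q t) (mk v s') (mk r t') ↔ th v q < th v r := by
  rw [LI_vertex t t' hs hq hr hqr, key_lt_iff_th hq hr]

/-- the piece `(v, s)–q` and the small piece `(v, s₁)–(v, s₂)` with `s₁, s₂ < s` -/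
theorem not_LI_out' {v q : ℝ} {s s₁ s₂ : ℝ} (t : ℝ) (h1 : s₁ < s) (h2 : s₂ < s) (hq : v ≠ q) :
    ¬ LI (mk v s) (mk q t) (mk v s₁) (mk v s₂) := by
  rw [LI_iff]
  unfold Bt
  simp only [mk_lt, ne_eq, mk_inj]
  grind

/-- parallel pieces with opposite relative shifts are nested -/
theorem not_LI_par' {a b : ℝ} {s s' t t' : ℝ} (hab : a ≠ b)
    (h : (s < s' ∧ t' < t) ∨ (s' < s ∧ t < t')) :
    ¬ LI (mk a s) (mk b t) (mk a s') (mk b t') := by
  rw [LI_iff]
  unfold Bt
  simp only [mk_lt, ne_eq, mk_inj]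
  grind

end Vale.Agent.P040.HH
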