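import Vale.Agent.P040.H198.Slot
import Mathlib.GroupTheory.Perm.Cycle.Concrete

/-!
# The rotation permutation (helper837)

For a vertex `b` of a finite set and an angle `a` which is injective on the other elements:
`rl a b` is the list of the others by increasing angle, `rho a b` the cyclic permutation of this
list (it fixes `b`).
-/

set_option autoImplicit false

namespace Vale.Agent.P040.HH

open Finset

section

variable {V : Type*} [Fintype V] [DecidableEq V] (a : V → ℝ) (b : V)

/-- the other elements -/
def oth : Finset V := univ.filter fun x => x ≠ b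

variable {b} in
theorem mem_oth {x : V} : x ∈ oth b ↔ x ≠ b := by simp [oth]

/-- compare by angle -/
def leA (x y : V) : Prop := a x ≤ a y

noncomputable instance : DecidableRel (leA a) := Classical.decRel _

instance : IsTrans V (leA a) := ⟨fun _ _ _ h h' => le_trans h h'⟩
instance : Std.Total (leA a) := ⟨fun x y => le_total (a x) (a y)⟩

/-- the others by increasing angle -/
noncomputable def rl : List V := (oth b).toList.insertionSort (leA a)

theorem rl_perm : (rl a b).Perm (oth b).toList := List.perm_insertionSort _ _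

theorem mem_rl {x : V} : x ∈ rl a b ↔ x ≠ b := by
  rw [(rl_perm a b).mem_iff, Finset.mem_toList, mem_oth]

theorem rl_nodup : (rl a b).Nodup := by
  rw [(rl_perm a b).nodup_iff]
  exact Finset.nodup_toList _

theorem length_rl : (rl a b).length = Fintype.card V - 1 := by
  rw [(rl_perm a b).length_eq, Finset.length_toList]
  unfold oth
  rw [Finset.filter_ne', Finset.card_erase_of_mem (mem_univ _), Finset.card_univ]

theorem rl_pairwise_le : (rl a b).Pairwise (leA a) := List.pairwise_insertionSort _ _

variable {a b} in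
theorem rl_pairwise (ha : ∀ x y, x ≠ b → y ≠ b → a x = a y → x = y) :
    (rl a b).Pairwise fun x y => a x < a y := by
  have h1 := (rl_pairwise_le a b).and (rl_nodup a b)
  refine h1.imp_of_mem ?_
  intro x y hx hy h
  exact lt_of_le_of_ne h.1 fun he => h.2 (ha x y ((mem_rl a b).1 hx) ((mem_rl a b).1 hy) he)

/-- the rotation permutation -/
noncomputable def rho : Equiv.Perm V := (rl a b).formPerm

theorem rho_self : rho a b b = b :=
  List.formPerm_apply_of_notMem (fun h => (mem_rl a b).1 h rfl)

theorem rho_ne {x : V} (hx : x ≠ b) : rho a b x ≠ b := by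
  intro h
  exact hx ((rho a b).injective (h.trans (rho_self a b).symm))

theorem rho_get {i : ℕ} (hi : i < (rl a b).length) :
    rho a b (rl a b)[i] = (rl a b)[(i + 1) % (rl a b).length]'(Nat.mod_lt _ (by omega)) :=
  List.formPerm_apply_getElem _ (rl_nodup a b) i hi

theorem rho_sameCycle {x y : V} (hx : x ≠ b) (hy : y ≠ b) : (rho a b).SameCycle x y := by
  have hx' := (mem_rl a b).2 hx
  have hy' := (mem_rl a b).2 hy
  rcases Nat.lt_or_ge (rl a b).length 2 with h | h
  · have : x = y := by
      obtain ⟨i, hi, rfl⟩ := List.getElem_of_mem hx'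
      obtain ⟨j, hj, rfl⟩ := List.getElem_of_mem hy'
      congr 1
      omega
    rw [this]
  · have hc := List.isCycle_formPerm (rl_nodup a b) h
    have hs : ∀ z ∈ rl a b, rho a b z ≠ z := by
      intro z hz
      rw [rho, List.formPerm_apply_mem_ne_self_iff _ (rl_nodup a b) z hz]
      exact h
    exact hc.sameCycle (hs x hx') (hs y hy')

theorem sum_rl {M : Type*} [AddCommMonoid M] (g : V → M) :
    ∑ k ∈ univ.filter (fun k => k ≠ b), g k =
      ∑ i : Fin (rl a b).length, g ((rl a b)[(i : ℕ)]) := by
  have h1 : ∑ k ∈ univ.filter (fun k => k ≠ b), g k = ((rl a b).map g).sum := by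
    rw [((rl_perm a b).map g).sum_eq]
    exact (Finset.sum_map_toList _ _).symm
  rw [h1]
  exact (Fin.sum_univ_fun_getElem (rl a b) g).symm

variable {a b} in
/-- the next element in the order of the angles, or from the last to the first -/
theorem rho_next (ha : ∀ x y, x ≠ b → y ≠ b → a x = a y → x = y) {k : V} (hk : k ≠ b) :
    (a k < a (rho a b k) ∧ ∀ x, x ≠ b → (a x < a (rho a b k) ↔ a x ≤ a k)) ∨
    ((∀ x, x ≠ b → a x ≤ a k) ∧ (∀ x, x ≠ b → a (rho a b k) ≤ a x)) := by
  obtain ⟨i, hi, rfl⟩ := List.getElem_of_mem ((mem_rl a b).2 hk)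
  have hp := List.pairwise_iff_getElem.1 (rl_pairwise ha)
  have hmono : ∀ (i j : ℕ) (hi : i < (rl a b).length) (hj : j < (rl a b).length),
      a (rl a b)[i] < a (rl a b)[j] ↔ i < j := by
    intro i j hi hj
    constructor
    · intro h
      by_contra hij
      rcases Nat.lt_or_eq_of_le (not_lt.1 hij) with h1 | h1
      · exact absurd (hp j i hj hi h1) h.not_gt
      · subst h1
        exact lt_irrefl _ h
    · exact hp i j hi hj
  have hmono' : ∀ (i j : ℕ) (hi : i < (rl a b).length) (hj : j < (rl a b).length),
      a (rl a b)[i] ≤ a (rl a b)[j] ↔ i ≤ j := by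
    intro i j hi hj
    rw [← not_lt, hmono j i hj hi, not_lt]
  rw [rho_get a b hi]
  rcases Nat.lt_or_ge (i + 1) (rl a b).length with h | h
  · left
    have hmod : (i + 1) % (rl a b).length = i + 1 := Nat.mod_eq_of_lt h
    simp only [hmod]
    refine ⟨(hmono _ _ _ _).2 (Nat.lt_succ_self i), ?_⟩
    intro x hx
    obtain ⟨j, hj, rfl⟩ := List.getElem_of_mem ((mem_rl a b).2 hx)
    rw [hmono _ _ _ _, hmono' _ _ _ _]
    omega
  · right
    have hmod : (i + 1) % (rl a b).length = 0 := by
      have : i + 1 = (rl a b).length := by omega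
      rw [this, Nat.mod_self]
    simp only [hmod]
    refine ⟨?_, ?_⟩
    · intro x hx
      obtain ⟨j, hj, rfl⟩ := List.getElem_of_mem ((mem_rl a b).2 hx)
      rw [hmono' _ _ _ _]
      omega
    · intro x hx
      obtain ⟨j, hj, rfl⟩ := List.getElem_of_mem ((mem_rl a b).2 hx)
      rw [hmono' _ _ _ _]
      omega

end

end Vale.Agent.P040.HH
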