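import Vale.Agent.P040.H837.LArm

/-!
# Slot stars of an arc diagram of `K_n` (helper837)

For vertices `b ≠ k` and a lane `lam` the star `slotArm C b k lam` has its centre `(pos b, -1)`
just left of the leaf `b`, and the own leaf `b` lies in the gap of the rotation of `b` just after
(`lam = true`) or just before (`lam = false`) the arm `k`.
-/

set_option autoImplicit false

namespace Vale.Agent.P040.HH

open Topo Bp

variable {n : ℕ} (C : CompDiag n)

/-- counterclockwise angle of the arm `x` at `b`, from the right spine direction -/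
noncomputable def cang (b x : Fin n) : ℝ :=
  if (C.arm b x).up then th (C.pos b) ((C.arm b x).p 1) else 4 - th (C.pos b) ((C.arm b x).p 1)

/-- the arm `x` comes before the own leaf -/
def Bef (b k : Fin n) (lam : Bool) (x : Fin n) : Prop :=
  cang C b x < cang C b k ∨ (lam = true ∧ x = k)

/-- the arm `x` is wrapped around the own leaf -/
def Wr (b k : Fin n) (lam : Bool) (x : Fin n) : Prop :=
  if (C.arm b k).up then Bef C b k lam x else ¬ Bef C b k lam x

/-- the shift of a wrapped arm at `b` -/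
noncomputable def ex (b x : Fin n) : ℝ := 3 - th (C.pos b) ((C.arm b x).p 1)

/-- sign of a page -/
def sg (u : Bool) : ℝ := if u then 1 else -1

/-- shift of the interior points of the arm to the partner `k` -/
noncomputable def ish (b k : Fin n) (lam : Bool) (x : Fin n) (i : ℕ) : ℝ :=
  if x = k ∧ k < b then sg lam * (-1) ^ i * sg (C.arm b k).up else 0

open Classical in
/-- the shift of the `i`-th point -/
noncomputable def msh (b k : Fin n) (lam : Bool) (x : Fin n) (i : ℕ) : ℝ :=
  if i = 0 then (if Wr C b k lam x then ex C b x else -1)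
  else if i < (C.arm b x).len then ish C b k lam x i else 0

/-- the points of the arm (without the centre, if the arm is wrapped) -/
noncomputable def mpt (b k : Fin n) (lam : Bool) (x : Fin n) (i : ℕ) : LR :=
  mk ((C.arm b x).p i) (msh C b k lam x i)

open Classical in
/-- the arm of the slot star -/
noncomputable def slotArm (b k : Fin n) (lam : Bool) (x : Fin n) : LArm LR :=
  if x = b then
    ⟨1, one_pos, fun i => if i = 0 then mk (C.pos b) (-1) else mk (C.pos b) 0, true⟩
  else if Wr C b k lam x then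
    ⟨(C.arm b x).len + 1, Nat.succ_pos _,
      fun i => if i = 0 then mk (C.pos b) (-1) else mpt C b k lam x (i - 1), !(C.arm b x).up⟩
  else ⟨(C.arm b x).len, (C.arm b x).len_pos, mpt C b k lam x, (C.arm b x).up⟩

variable {C}

theorem slotArm_own {b k : Fin n} {lam : Bool} : slotArm C b k lam b =
    ⟨1, one_pos, fun i => if i = 0 then mk (C.pos b) (-1) else mk (C.pos b) 0, true⟩ := by
  classical
  exact if_pos rfl

theorem slotArm_wr {b k x : Fin n} {lam : Bool} (hx : x ≠ b) (h : Wr C b k lam x) :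
    slotArm C b k lam x = ⟨(C.arm b x).len + 1, Nat.succ_pos _,
      fun i => if i = 0 then mk (C.pos b) (-1) else mpt C b k lam x (i - 1),
      !(C.arm b x).up⟩ := by
  classical
  unfold slotArm
  rw [if_neg hx, if_pos h]

theorem slotArm_dir {b k x : Fin n} {lam : Bool} (hx : x ≠ b) (h : ¬ Wr C b k lam x) :
    slotArm C b k lam x = ⟨(C.arm b x).len, (C.arm b x).len_pos, mpt C b k lam x,
      (C.arm b x).up⟩ := by
  classical
  unfold slotArm
  rw [if_neg hx, if_neg h]

theorem msh_zero_wr {b k x : Fin n} {lam : Bool} (h : Wr C b k lam x) :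
    msh C b k lam x 0 = ex C b x := by
  classical
  unfold msh
  rw [if_pos rfl, if_pos h]

theorem msh_zero_dir {b k x : Fin n} {lam : Bool} (h : ¬ Wr C b k lam x) :
    msh C b k lam x 0 = -1 := by
  classical
  unfold msh
  rw [if_pos rfl, if_neg h]

theorem msh_last {b k x : Fin n} {lam : Bool} :
    msh C b k lam x (C.arm b x).len = 0 := by
  classical
  unfold msh
  rw [if_neg (C.arm b x).len_pos.ne', if_neg (lt_irrefl _)]

theorem msh_int {b k x : Fin n} {lam : Bool} {i : ℕ} (h0 : 0 < i) (h : i < (C.arm b x).len) :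
    msh C b k lam x i = ish C b k lam x i := by
  classical
  unfold msh
  rw [if_neg h0.ne', if_pos h]

theorem p_one_ne_pos {b x : Fin n} (h : b ≠ x) : C.pos b ≠ (C.arm b x).p 1 := by
  intro he
  rw [← C.arm_zero b x h] at he
  have := C.self_inj b x h 0 (Nat.zero_le _) 1 (C.arm b x).len_pos he
  omega

theorem ex_pos {b x : Fin n} (h : b ≠ x) : 0 < ex C b x := by
  unfold ex
  linarith [(th_pos (Ne.symm (p_one_ne_pos (C := C) h))).2]

/-- coincidences of points -/
theorem pt_eq {b x k y : Fin n} (hbx : b ≠ x) (hky : k ≠ y) {a c : ℕ} (ha : a ≤ (C.arm b x).len)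
    (hc : c ≤ (C.arm k y).len) (h : (C.arm b x).p a = (C.arm k y).p c) :
    (b = k ∧ x = y ∧ a = c) ∨
    (b = y ∧ x = k ∧ 0 < a ∧ a < (C.arm b x).len ∧ a + c = (C.arm b x).len) ∨
    (b = k ∧ a = 0 ∧ c = 0) ∨ (b = y ∧ a = 0 ∧ c = (C.arm k y).len) ∨
    (x = k ∧ a = (C.arm b x).len ∧ c = 0) ∨ (x = y ∧ a = (C.arm b x).len ∧
      c = (C.arm k y).len) := by
  have hl1 := (C.arm b x).len_pos
  have hl2 := (C.arm k y).len_pos
  rcases Nat.eq_zero_or_pos a with ha0 | ha0
  · subst ha0
    rw [C.arm_zero b x hbx] at h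
    rcases Nat.eq_zero_or_pos c with hc0 | hc0
    · subst hc0
      rw [C.arm_zero k y hky] at h
      exact Or.inr (Or.inr (Or.inl ⟨C.pos_inj h, rfl, rfl⟩))
    · rcases Nat.lt_or_ge c (C.arm k y).len with hc1 | hc1
      · exact absurd h.symm (C.int_ne_pos k y hky c hc0 hc1 b)
      · have hc2 : c = (C.arm k y).len := by omega
        subst hc2
        rw [C.arm_last k y hky] at h
        exact Or.inr (Or.inr (Or.inr (Or.inl ⟨C.pos_inj h, rfl, rfl⟩)))
  · rcases Nat.lt_or_ge a (C.arm b x).len with ha1 | ha1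
    · rcases Nat.eq_zero_or_pos c with hc0 | hc0
      · subst hc0
        rw [C.arm_zero k y hky] at h
        exact absurd h (C.int_ne_pos b x hbx a ha0 ha1 k)
      · rcases Nat.lt_or_ge c (C.arm k y).len with hc1 | hc1
        · by_cases h1 : b = k ∧ x = y
          · obtain ⟨rfl, rfl⟩ := h1
            exact Or.inl ⟨rfl, rfl, C.self_inj b x hbx a ha c hc h⟩
          · by_cases h2 : b = y ∧ x = k
            · obtain ⟨rfl, rfl⟩ := h2
              rw [C.rev_len b x hbx] at hc hc1
              rw [C.rev_p b x hbx c hc] at h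
              have := C.self_inj b x hbx a ha _ (Nat.sub_le _ _) h
              exact Or.inr (Or.inl ⟨rfl, rfl, ha0, ha1, by omega⟩)
            · exact absurd h (C.int_disj b x k y hbx hky h1 h2 a c ha0 ha1 hc0 hc1)
        · have hc2 : c = (C.arm k y).len := by omega
          subst hc2
          rw [C.arm_last k y hky] at h
          exact absurd h (C.int_ne_pos b x hbx a ha0 ha1 y)
    · have ha2 : a = (C.arm b x).len := by omega
      subst ha2
      rw [C.arm_last b x hbx] at h
      rcases Nat.eq_zero_or_pos c with hc0 | hc0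
      · subst hc0
        rw [C.arm_zero k y hky] at h
        exact Or.inr (Or.inr (Or.inr (Or.inr (Or.inl ⟨C.pos_inj h, rfl, rfl⟩))))
      · rcases Nat.lt_or_ge c (C.arm k y).len with hc1 | hc1
        · exact absurd h.symm (C.int_ne_pos k y hky c hc0 hc1 x)
        · have hc2 : c = (C.arm k y).len := by omega
          subst hc2
          rw [C.arm_last k y hky] at h
          exact Or.inr (Or.inr (Or.inr (Or.inr (Or.inr ⟨C.pos_inj h, rfl, rfl⟩))))

/-- a point of an arm other than its ends is not at the vertex `v` -/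
theorem p_ne_pos {b x v : Fin n} (hbx : b ≠ x) {a : ℕ} (ha : a ≤ (C.arm b x).len)
    (h0 : v = b → a ≠ 0) (h1 : v = x → a ≠ (C.arm b x).len) : C.pos v ≠ (C.arm b x).p a := by
  intro h
  rcases Nat.eq_zero_or_pos a with ha0 | ha0
  · subst ha0
    rw [C.arm_zero b x hbx] at h
    exact h0 (C.pos_inj h) rfl
  · rcases Nat.lt_or_ge a (C.arm b x).len with ha1 | ha1
    · exact C.int_ne_pos b x hbx a ha0 ha1 v h.symm
    · have ha2 : a = (C.arm b x).len := by omega
      subst ha2
      rw [C.arm_last b x hbx] at h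
      exact h1 (C.pos_inj h) rfl

/-- the kinds of pieces -/
theorem kind {b k x : Fin n} {lam : Bool} {i : ℕ} (hi : i < (slotArm C b k lam x).len) :
    (x = b ∧ i = 0 ∧ (slotArm C b k lam x).p i = mk (C.pos b) (-1) ∧
      (slotArm C b k lam x).p (i + 1) = mk (C.pos b) 0 ∧
      (slotArm C b k lam x).page i = true) ∨
    (x ≠ b ∧ Wr C b k lam x ∧ i = 0 ∧ (slotArm C b k lam x).p i = mk (C.pos b) (-1) ∧
      (slotArm C b k lam x).p (i + 1) = mk (C.pos b) (ex C b x) ∧
      (slotArm C b k lam x).page i = !(C.arm b x).up) ∨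
    (x ≠ b ∧ ∃ a < (C.arm b x).len, (slotArm C b k lam x).p i = mpt C b k lam x a ∧
      (slotArm C b k lam x).p (i + 1) = mpt C b k lam x (a + 1) ∧
      (slotArm C b k lam x).page i = (C.arm b x).page a ∧
      ((Wr C b k lam x ∧ i = a + 1) ∨ (¬ Wr C b k lam x ∧ i = a))) := by
  by_cases hx : x = b
  · left
    subst hx
    rw [slotArm_own] at hi ⊢
    dsimp only at hi
    have : i = 0 := by omega
    subst this
    exact ⟨rfl, rfl, rfl, rfl, rfl⟩
  · right
    by_cases hw : Wr C b k lam x
    · rw [slotArm_wr hx hw] at hi ⊢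
      dsimp only at hi
      rcases Nat.eq_zero_or_pos i with h0 | h0
      · left
        subst h0
        refine ⟨hx, hw, rfl, rfl, ?_, rfl⟩
        change mpt C b k lam x 0 = _
        unfold mpt
        rw [msh_zero_wr hw, C.arm_zero b x (Ne.symm hx)]
      · right
        obtain ⟨a, rfl⟩ : ∃ a, i = a + 1 := ⟨i - 1, by omega⟩
        refine ⟨hx, a, by omega, rfl, rfl, ?_, Or.inl ⟨hw, rfl⟩⟩
        rw [LArm.page_succ]
        unfold LArm.page Arm.page
        dsimp only
        split_ifs <;> simp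
    · right
      rw [slotArm_dir hx hw] at hi ⊢
      exact ⟨hx, i, hi, rfl, rfl, rfl, Or.inr ⟨hw, rfl⟩⟩

/-- main pieces whose ends have different bases -/
theorem main_base {b x k y : Fin n} (hbx : b ≠ x) (hky : k ≠ y)
    (hor : b = k ∨ b = y ∨ x = k ∨ x = y) {a c : ℕ} (ha : a < (C.arm b x).len)
    (hc : c < (C.arm k y).len) (hp : (C.arm b x).page a = (C.arm k y).page c) {s s' t t' : ℝ}
    (h1 : (C.arm b x).p a ≠ (C.arm k y).p c) (h2 : (C.arm b x).p a ≠ (C.arm k y).p (c + 1))
    (h3 : (C.arm b x).p (a + 1) ≠ (C.arm k y).p c)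
    (h4 : (C.arm b x).p (a + 1) ≠ (C.arm k y).p (c + 1)) :
    ¬ LI (mk ((C.arm b x).p a) s) (mk ((C.arm b x).p (a + 1)) s') (mk ((C.arm k y).p c) t)
      (mk ((C.arm k y).p (c + 1)) t') := by
  rw [LI_base s s' t t' h1 h2 h3 h4]
  intro h
  exact C.nc b x k y hbx hky hor a c ha hc ⟨hp, h⟩

theorem page_ne (A : Arm) (a : ℕ) : A.page a ≠ A.page (a + 1) := by
  rw [Arm.page_succ]
  cases A.page a <;> simp

theorem cang_up {b x : Fin n} (h : (C.arm b x).up = true) :
    cang C b x = th (C.pos b) ((C.arm b x).p 1) := by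
  unfold cang; rw [if_pos h]

theorem cang_dn {b x : Fin n} (h : (C.arm b x).up = false) :
    cang C b x = 4 - th (C.pos b) ((C.arm b x).p 1) := by
  unfold cang; rw [if_neg (by simp [h])]

theorem th_mem {b x : Fin n} (h : b ≠ x) : 0 < th (C.pos b) ((C.arm b x).p 1) ∧
    th (C.pos b) ((C.arm b x).p 1) < 2 := th_pos (Ne.symm (p_one_ne_pos h))

/-- first points of two arms at `b` are different -/
theorem p_one_ne_p_one {b x y : Fin n} (hx : b ≠ x) (hy : b ≠ y) (hxy : x ≠ y) :
    (C.arm b x).p 1 ≠ (C.arm b y).p 1 := by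
  intro h
  have h1 := (C.arm b x).len_pos
  have h2 := (C.arm b y).len_pos
  rcases pt_eq hx hy h1 h2 h with ⟨-, h3, -⟩ | ⟨h3, -⟩ | ⟨-, h3, -⟩ | ⟨-, h3, -⟩ | ⟨h3, -⟩ |
    ⟨h3, -⟩
  · exact hxy h3
  · exact hy h3
  · omega
  · omega
  · exact hx h3.symm
  · exact hxy h3

theorem cang_inj {b x y : Fin n} (hx : b ≠ x) (hy : b ≠ y) (h : cang C b x = cang C b y) :
    x = y := by
  by_contra hne
  have h1 := p_one_ne_p_one (C := C) hx hy hne
  have m1 := th_mem (C := C) hx
  have m2 := th_mem (C := C) hy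
  rcases hu : (C.arm b x).up with _ | _ <;> rcases hv : (C.arm b y).up with _ | _
  · rw [cang_dn hu, cang_dn hv] at h
    exact h1 (th_inj (Ne.symm (p_one_ne_pos hx)) (Ne.symm (p_one_ne_pos hy)) (by linarith))
  · rw [cang_dn hu, cang_up hv] at h
    linarith
  · rw [cang_up hu, cang_dn hv] at h
    linarith
  · rw [cang_up hu, cang_up hv] at h
    exact h1 (th_inj (Ne.symm (p_one_ne_pos hx)) (Ne.symm (p_one_ne_pos hy)) h)

/-- wrapped arms start in the page of the arm `k` -/
theorem up_of_wr {b k x : Fin n} {lam : Bool} (hk : b ≠ k) (hx : b ≠ x) (hw : Wr C b k lam x) :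
    (C.arm b x).up = (C.arm b k).up := by
  have m1 := th_mem (C := C) hx
  have m2 := th_mem (C := C) hk
  unfold Wr Bef at hw
  rcases hu : (C.arm b k).up with _ | _
  · rw [hu] at hw
    simp only [Bool.false_eq_true, if_false, not_or, not_lt] at hw
    rcases hv : (C.arm b x).up with _ | _
    · rfl
    · rw [cang_dn hu, cang_up hv] at hw
      linarith [hw.1]
  · rw [hu] at hw
    simp only [if_true] at hw
    rcases hv : (C.arm b x).up with _ | _
    · rw [cang_up hu, cang_dn hv] at hw
      rcases hw with h | ⟨-, rfl⟩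
      · linarith
      · rw [hu] at hv; exact absurd hv (by simp)
    · rfl

/-- a wrapped arm `y` and a direct arm `x` which start in the same page -/
theorem th_lt_of_wr {b k x y : Fin n} {lam : Bool} (hk : b ≠ k) (hx : b ≠ x) (hy : b ≠ y)
    (hwy : Wr C b k lam y) (hwx : ¬ Wr C b k lam x) (hup : (C.arm b x).up = (C.arm b y).up) :
    th (C.pos b) ((C.arm b y).p 1) < th (C.pos b) ((C.arm b x).p 1) := by
  have hyk := up_of_wr hk hy hwy
  have hxk : (C.arm b x).up = (C.arm b k).up := hup.trans hyk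
  unfold Wr Bef at hwy hwx
  rcases hu : (C.arm b k).up with _ | _
  · rw [hu] at hwy hwx hyk hxk
    simp only [Bool.false_eq_true, if_false] at hwy hwx
    rw [not_not] at hwx
    simp only [not_or, not_lt] at hwy
    rw [cang_dn hyk, cang_dn hu] at hwy
    rw [cang_dn hxk, cang_dn hu] at hwx
    rcases hwx with h | ⟨hl, rfl⟩
    · linarith [hwy.1]
    · have h1 : y ≠ x := fun h => hwy.2 ⟨hl, h⟩
      refine lt_of_le_of_ne (by linarith [hwy.1]) ?_
      intro h
      exact p_one_ne_p_one hy hx h1 (th_inj (Ne.symm (p_one_ne_pos hy))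
        (Ne.symm (p_one_ne_pos hx)) h)
  · rw [hu] at hwy hwx hyk hxk
    simp only [if_true, not_or, not_lt] at hwy hwx
    rw [cang_up hyk, cang_up hu] at hwy
    rw [cang_up hxk, cang_up hu] at hwx
    rcases hwy with h | ⟨hl, rfl⟩
    · linarith [hwx.1]
    · have h1 : x ≠ y := fun h => hwx.2 ⟨hl, h⟩
      refine lt_of_le_of_ne hwx.1 ?_
      intro h
      exact p_one_ne_p_one hy hx (Ne.symm h1) (th_inj (Ne.symm (p_one_ne_pos hy))
        (Ne.symm (p_one_ne_pos hx)) h)

end Vale.Agent.P040.HH
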